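import Vale.Agent.P167.H212.TwoH
import Vale.Agent.P167.H397.Q.S2Mono

/-!
# P167, Stage II, TOP, file 2: the interfaces

A shape `P : Sh2` is a unit lattice polygon (counterclockwise) with the marks `b` = midpoint of the
side `0` (the target) and `a` = midpoint of the side `k` (the tip), which contains the origin in its
interior.  The arc from `a` to `b` is free, the arc from `b` to
`a` is wired.

* `ZDom` : a polygon of the lattice with a face, `ZDom.pr` the probability of the event `L` (397);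
* `GeoL` : comparison of the exploration (in arbitrary lattice domains) with finitely many shapes;
* `ShLim` : convergence of the probabilities of `L` in the enlargements of the shapes.
-/

set_option autoImplicit false

namespace Vale.Agent.P167.H212.L

open MeasureTheory Filter Topology Set
open Vale.Agent.P167.H192 (cfg ro rf)
open Vale.Agent.P167.E6 (pt IsPolygon Encloses region Medial)
open Vale.Agent.P167.H411 (Set6 exn)
open Vale.Agent.P167.H397.Q (LZ PL PasF PasLim Mono)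
open Vale.Agent.P167.H947 (flow)
open Vale.Agent.P153.R2.R1 (IsU)

/-! ### Lattice domains -/

/-- A polygon of the lattice with the marks `p 0` and `p k`, and a face. -/
structure ZDom where
  n : ℕ
  p : ZMod n → ℤ × ℤ
  k : ℕ
  S : Finset (ℤ × ℤ)
  f : ℤ × ℤ

/-- The probability of the event `L` for the face. -/
noncomputable def ZDom.pr (q : ℝ) (D : ZDom) : ℝ := PL q D.p D.k D.S D.f

/-! ### Shapes -/

/-- A unit lattice polygon with the marks `b` (side `0`) and `a` (side `k`). -/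
structure Sh2 where
  m : ℕ
  q : ZMod m → ℤ × ℤ
  S : Finset (ℤ × ℤ)
  k : ℕ

/-- The shape is well formed. -/
structure Sh2.Ok (P : Sh2) : Prop where
  poly : IsPolygon P.q
  encl : Encloses P.q P.S
  k_pos : 0 < P.k
  k_lt : P.k < P.m
  org : ∀ v : ℤ × ℤ, -1 ≤ v.1 → v.1 ≤ 0 → -1 ≤ v.2 → v.2 ≤ 0 → v ∈ P.S

/-- The mark `a`. -/
noncomputable def Sh2.a (P : Sh2) : ℂ :=
  pt (P.q P.k) + (1 / 2 : ℝ) * pt (P.q (P.k + 1) - P.q P.k)

/-- The mark `b`. -/
noncomputable def Sh2.b (P : Sh2) : ℂ := pt (P.q 0) + (1 / 2 : ℝ) * pt (P.q 1 - P.q 0)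

/-- The angle of the origin: the argument of its preimage under the uniformizers of the polygon which
map `0` to `a` and `∞` to `b`. -/
def Sh2.Ang (P : Sh2) (x : ℝ) : Prop :=
  ∃ (φ : ℂ → ℂ) (z : ℂ), IsU φ (interior (region 1 P.S)) P.a P.b ∧ 0 < z.im ∧ φ z = 0 ∧ z.arg = x

/-! ### The geometric input -/

/-- The comparison for one lattice domain: except on histories of small weight the conditional
probability of `L` is between those of two shapes, in which the angle of the origin is close to the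
angle of `g_t(b e^{i θ}) - W_t`. -/
def GeoLAt {n : ℕ} (q : ℝ) (X : Vale.Agent.P153.M1.Expl (Finset (Sym2 (ℤ × ℤ))) Medial)
    (w : Finset (Sym2 (ℤ × ℤ)) → ℝ) (p : ZMod n → ℤ × ℤ) (k : ℕ) (T R b θ ε : ℝ)
    (Sh : Set Sh2) (E : Sh2 → ZDom) : Prop :=
  ∃ f : ℤ × ℤ, ∀ κ : Finset (Sym2 (ℤ × ℤ)) → ℕ, QE.BefIx X T R κ →
    QE.ExW X.C w ({A | ¬ ∃ P ∈ Sh, ∃ P' ∈ Sh,
      (E P).pr q - ε ≤ QE.cexW X w (fun A' => (LZ (ro (p (-1))) (rf f)).indicator 1
        (cfg (Final.wiredOpen p k A'))) A (κ A) ∧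
      QE.cexW X w (fun A' => (LZ (ro (p (-1))) (rf f)).indicator 1
        (cfg (Final.wiredOpen p k A'))) A (κ A) ≤ (E P').pr q + ε ∧
      ∀ Q : Sh2, (Q = P ∨ Q = P') → ∃ x : ℝ, Q.Ang x ∧
        |x - (flow (X.W A) (X.c A (κ A)) (pz b θ) - (X.W A (X.c A (κ A)) : ℝ)).arg| ≤ ε}.indicator 1)
      ≤ ε

/-- **[GEOL]** The output of the comparison and of the conformal closeness for Stage II.
`Re P N s D` means that the lattice domain `D` realizes the `N`-fold enlargement of the shape `P`, with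
the origin at the dual site `s`. -/
def GeoL (Re : Sh2 → ℕ → ℤ × ℤ → ZDom → Prop) (q : ℝ) : Prop :=
  ∀ (Φ : (ℝ × ℝ) ≃ₜ (ℝ × ℝ)) (ψ : ℂ → ℂ)
  (δ : ℕ → ℝ) (N k : ℕ → ℕ) (p : ∀ n, ZMod (N n) → ℤ × ℤ) (S : ℕ → Finset (ℤ × ℤ))
  (ψn : ℕ → ℂ → ℂ), Set6 Φ ψ δ N k p S ψn → ∀ T R : ℝ, 0 ≤ T → 0 < R →
    ∃ b₁ : ℝ, ∀ b : ℝ, b₁ ≤ b → ∀ θ ∈ Ioo 0 Real.pi, ∀ ε : ℝ, 0 < ε →
      ∃ (Sh : Set Sh2) (N' : ℕ → ℕ) (s : ℕ → ℤ × ℤ) (E : ℕ → Sh2 → ZDom), Sh.Finite ∧
        (∀ P ∈ Sh, P.Ok) ∧ Tendsto N' atTop atTop ∧ (∀ n, 4 ∣ N' n) ∧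
        (∀ n, Odd ((s n).1 + (s n).2)) ∧ (∀ᶠ n in atTop, ∀ P ∈ Sh, Re P (N' n) (s n) (E n P)) ∧
        ∀ᶠ n in atTop, GeoLAt q (exn δ N k p S ψn n) (QE.wq q (N n) (p n) (k n) (S n)) (p n) (k n)
          T R b θ ε Sh (E n)

/-- The probabilities of `L` in the enlargements of the shapes converge. -/
def ShLim (Re : Sh2 → ℕ → ℤ × ℤ → ZDom → Prop) (q : ℝ) (h : ℂ → ℝ) : Prop :=
  ∀ P : Sh2, P.Ok → ∀ x : ℝ, P.Ang x → ∀ (N' : ℕ → ℕ) (s : ℕ → ℤ × ℤ) (E : ℕ → ZDom),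
    Tendsto N' atTop atTop → (∀ n, 4 ∣ N' n) → (∀ n, Odd ((s n).1 + (s n).2)) →
    (∀ᶠ n in atTop, Re P (N' n) (s n) (E n)) →
    Tendsto (fun n => (E n).pr q) atTop (𝓝 (h (pz 1 x)))

end Vale.Agent.P167.H212.L
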