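import Vale.Agent.P167.H212.ArgFlow

/-!
# P167, Stage II, TOP, file 1: the angle of a far point stays away from `0` and `π`
-/

namespace Vale.Agent.P167.H212

open Set Filter Topology MeasureTheory Vale.Agent.P153.BESS Vale.Agent.P167.H411
open Vale.Agent.P164
open Vale.Agent.P167.H947
open scoped ComplexConjugate

/-- The imaginary part of a solution. -/
theorem im_csol {W : ℝ → ℝ} {t R : ℝ} {z : ℂ} {g : ℝ → ℂ} (ht : 0 ≤ t)
    (hW : ContinuousOn W (Icc 0 t)) (hR : ∀ s ∈ Icc 0 t, |W s| ≤ R) (hz : 0 < ‖z‖)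
    (h1 : 4 * R ≤ ‖z‖) (h2 : 16 * t ≤ ‖z‖ ^ 2) (hg : CSol W z t g) (him : 0 < z.im)
    (hgi : 0 < (g t).im) : z.im * Real.exp (-(8 * t / ‖z‖ ^ 2)) ≤ (g t).im := by
  have hb := cs_bounds ht hW hR hz h1 h2 hg
  have h3 := csol_sub ht hW hg (CSol.conj hg) t ⟨ht, le_rfl⟩
  have e1 : g t - conj (g t) = ((2 * (g t).im : ℝ) : ℂ) * Complex.I := by
    rw [Complex.sub_conj]
  have e2 : z - conj z = ((2 * z.im : ℝ) : ℂ) * Complex.I := by
    rw [Complex.sub_conj]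
  rw [e1, e2] at h3
  have h4 := congrArg norm h3
  rw [norm_mul, norm_mul, norm_mul, Complex.norm_I, mul_one, mul_one, Complex.norm_real,
    Complex.norm_real, Real.norm_eq_abs, Real.norm_eq_abs, abs_of_pos (by positivity),
    abs_of_pos (by positivity), Complex.norm_exp] at h4
  obtain ⟨J, hJ⟩ : ∃ J, J = ∫ u in (0 : ℝ)..t, (2 : ℂ) / ((g u - W u) * (conj (g u) - W u)) :=
    ⟨_, rfl⟩
  rw [← hJ] at h4
  have hJn : ‖J‖ ≤ 8 * t / ‖z‖ ^ 2 := by
    have h5 : ∀ u ∈ uIoc 0 t, ‖(2 : ℂ) / ((g u - W u) * (conj (g u) - W u))‖ ≤ 8 / ‖z‖ ^ 2 := by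
      intro u hu
      rw [uIoc_of_le ht] at hu
      obtain ⟨-, -, h6⟩ := hb u ⟨hu.1.le, hu.2⟩
      have h7 : ‖conj (g u) - (W u : ℂ)‖ = ‖g u - W u‖ := by
        rw [← Complex.conj_ofReal (W u), ← map_sub, Complex.norm_conj, Complex.conj_ofReal]
      rw [norm_div, norm_mul, h7]
      have h8 : ‖(2 : ℂ)‖ = 2 := by simp
      rw [h8]
      have h9 : (‖z‖ / 2) * (‖z‖ / 2) ≤ ‖g u - W u‖ * ‖g u - W u‖ := by gcongr
      calc (2 : ℝ) / (‖g u - W u‖ * ‖g u - W u‖) ≤ 2 / ((‖z‖ / 2) * (‖z‖ / 2)) :=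
            div_le_div_of_nonneg_left (by norm_num) (by positivity) h9
        _ = 8 / ‖z‖ ^ 2 := by field_simp; norm_num
    have h6 := intervalIntegral.norm_integral_le_of_norm_le_const h5
    rw [sub_zero, abs_of_nonneg ht, ← hJ] at h6
    refine h6.trans (le_of_eq ?_)
    ring
  have h5 : Real.exp (-(8 * t / ‖z‖ ^ 2)) ≤ Real.exp ((-J).re) := by
    apply Real.exp_le_exp.2
    have := Complex.re_le_norm J
    rw [Complex.neg_re]
    linarith
  have h6 : z.im * Real.exp (-(8 * t / ‖z‖ ^ 2)) ≤ z.im * Real.exp ((-J).re) :=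
    mul_le_mul_of_nonneg_left h5 him.le
  linarith

/-- **The angle stays away from `0` and `π`.** -/
theorem arg_low {T R : ℝ} (hT : 0 ≤ T) (hR : 0 ≤ R) : ∃ b₀ : ℝ, 0 < b₀ ∧ ∀ b : ℝ, b₀ ≤ b →
    ∀ θ ∈ Ioo 0 Real.pi, ∃ c : ℝ, 0 < c ∧ ∀ (W : ℝ → ℝ) (t : ℝ), 0 ≤ t → t ≤ T →
      ContinuousOn W (Icc 0 t) → (∀ s ∈ Icc 0 t, |W s| ≤ R) →
      0 < (flow W t (pz b θ) - W t).im ∧
      (flow W t (pz b θ) - W t).arg ∈ Icc c (Real.pi - c) := by
  refine ⟨1 + 4 * R + 16 * T, by positivity, fun b hb θ hθ => ?_⟩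
  have hb1 : 1 ≤ b := by linarith
  have hb0 : 0 < b := by linarith
  have hsin : 0 < Real.sin θ := Real.sin_pos_of_pos_of_lt_pi hθ.1 hθ.2
  obtain ⟨c, hc⟩ : ∃ c, c = Real.sin θ * Real.exp (-(8 * T / b ^ 2)) / 2 := ⟨_, rfl⟩
  have hc0 : 0 < c := by rw [hc]; positivity
  refine ⟨c, hc0, fun W t ht htT hW hWR => ?_⟩
  set z := pz b θ with hzdef
  have hzn : ‖z‖ = b := norm_pz hb0.le θ
  have hz0 : 0 < ‖z‖ := by rw [hzn]; exact hb0
  have h1 : 4 * R ≤ ‖z‖ := by rw [hzn]; linarith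
  have h2 : 16 * t ≤ ‖z‖ ^ 2 := by
    rw [hzn]
    nlinarith
  obtain ⟨g, hg⟩ := exists_csol ht hW hWR hz0 h1 h2
  have hzim : 0 < z.im := by
    rw [hzdef, im_pz]
    positivity
  rw [flow_eq ht hW hg]
  have hgi : 0 < (g t).im := ((hg.loewner hW hzim).2 t ⟨ht, le_rfl⟩).1
  have hgim : 0 < (g t - W t).im := by
    rw [Complex.sub_im, Complex.ofReal_im, sub_zero]
    exact hgi
  refine ⟨hgim, ?_⟩
  have h3 := im_csol ht hW hWR hz0 h1 h2 hg hzim hgi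
  have hbd := cs_bounds ht hW hWR hz0 h1 h2 hg t ⟨ht, le_rfl⟩
  rw [hzn] at h3 hbd
  have h4 : ‖g t - W t‖ ≤ 2 * b := by
    have h5 : ‖g t - W t‖ ≤ ‖g t - z‖ + ‖z‖ + ‖(W t : ℂ)‖ := by
      have e : g t - W t = (g t - z) + z - W t := by ring
      rw [e]
      exact (norm_sub_le _ _).trans (by gcongr; exact norm_add_le _ _)
    rw [Complex.norm_real, Real.norm_eq_abs, hzn] at h5
    have := hWR t ⟨ht, le_rfl⟩
    linarith [hbd.2.1]
  set u := g t - (W t : ℂ) with hu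
  have hun : 0 < ‖u‖ := norm_pos_iff.2 (by
    intro h0
    rw [h0] at hgim
    simp at hgim)
  have h5 : c ≤ Real.sin u.arg := by
    rw [Complex.sin_arg, le_div_iff₀ hun]
    have h6 : c * ‖u‖ ≤ c * (2 * b) := mul_le_mul_of_nonneg_left h4 hc0.le
    have h7 : c * (2 * b) = b * Real.sin θ * Real.exp (-(8 * T / b ^ 2)) := by
      rw [hc]; ring
    have h8 : Real.exp (-(8 * T / b ^ 2)) ≤ Real.exp (-(8 * t / b ^ 2)) := by
      apply Real.exp_le_exp.2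
      have : 8 * t / b ^ 2 ≤ 8 * T / b ^ 2 := by gcongr
      linarith
    have h9 : b * Real.sin θ * Real.exp (-(8 * T / b ^ 2)) ≤
        b * Real.sin θ * Real.exp (-(8 * t / b ^ 2)) :=
      mul_le_mul_of_nonneg_left h8 (by positivity)
    have h10 : u.im = (g t).im := by
      rw [hu, Complex.sub_im, Complex.ofReal_im, sub_zero]
    have h11 : z.im = b * Real.sin θ := im_pz b θ
    rw [h11] at h3
    rw [h10]
    linarith
  have h6 : 0 ≤ u.arg := Complex.arg_nonneg_iff.2 hgim.le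
  have h7 : u.arg ≤ Real.pi := Complex.arg_le_pi _
  constructor
  · exact h5.trans (Real.sin_le h6)
  · have h8 : Real.sin (Real.pi - u.arg) = Real.sin u.arg := Real.sin_pi_sub _
    have h9 := Real.sin_le (x := Real.pi - u.arg) (by linarith)
    linarith

end Vale.Agent.P167.H212
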