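import Vale.Agent.P167.H212.L.ShL
import Vale.Agent.P167.H653.Real.Defs

/-!
# P167, Stage II: convergence for the shapes, file 5: the realizations of 653

`rl_of_real` : `RealP` gives `Rl`.  `shLim_real` : `ShLim Re q h` for every `Re` which implies `RealP`.
-/

set_option autoImplicit false

namespace Vale.Agent.P167.H212.L

open Filter Topology Set Metric
open Vale.Agent.P153.R2.R1 (pl pl_eq)
open Vale.Agent.P167.E6 (PF6 PV6 IsPolygon Encloses pt dir)
open Vale.Agent.P167.H192 (ro rf)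
open Vale.Agent.P167.H397.Q (PasF PasLim)
open Vale.Agent.P167.QE (Stair)
open Vale.Agent.P167.H825 (pdir dirOf)
open Vale.Agent.P167.H653.Real (RealP cc)

/-- The sites of the enlargement are on the curve of the polygon. -/
theorem pt_PN {m : ℕ} {q : ZMod m → ℤ × ℤ} (hq : IsPolygon q) {N : ℕ} (hN : 0 < N) (M : ℕ) :
    pt (Enl.PN q N M) = N * PF6 q 1 ((M : ℝ) / N) := by
  have hNr : (0 : ℝ) < N := by exact_mod_cast hN
  have hM := Nat.div_add_mod' M N
  have hj := Nat.mod_lt M hN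
  set i := M / N
  set j := M % N
  have hMr : (M : ℝ) / N = i + (j : ℝ) / N := by
    rw [← hM]
    push_cast
    field_simp
  have h1 : (j : ℝ) / N ≤ 1 := by
    rw [div_le_one hNr]
    exact_mod_cast hj.le
  have h0 : (0 : ℝ) ≤ (j : ℝ) / N := by positivity
  unfold PF6
  rw [hMr, pl_eq (PV6 q 1) i (x := i + (j : ℝ) / N) (by push_cast; linarith)
    (by push_cast; linarith)]
  unfold PV6
  have h2 : pt (q (((i : ℤ) : ZMod m))) = pt (q (i : ZMod m)) := by push_cast; rfl
  have h3 : pt (q (((i : ℤ) + 1 : ℤ) : ZMod m)) = pt (q (i : ZMod m)) + pt (dir (pdir q i)) := by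
    push_cast
    rw [Enl.pdir_step hq, pt_add]
  rw [h2, h3, ← hM, Enl.PN_lin hN hj]
  have h4 : pt ((N : ℤ) • q (i : ZMod m) + (j : ℤ) • dir (pdir q i)) =
      N * pt (q (i : ZMod m)) + j * pt (dir (pdir q i)) := by
    rw [pt_add]
    congr 1 <;> apply Complex.ext <;> simp [pt]
  rw [h4]
  simp only [Complex.real_smul]
  have hNc : (N : ℂ) ≠ 0 := by exact_mod_cast hNr.ne'
  push_cast
  field_simp
  ring

theorem norm_pt_dir (r : Fin 4) : ‖pt (dir r)‖ ≤ 1 := by
  have h := Complex.norm_le_abs_re_add_abs_im (pt (dir r))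
  fin_cases r <;> simpa [pt, dir] using h

theorem norm_pt_le (v : ℤ × ℤ) : ‖pt v‖ ≤ |(v.1 : ℝ)| + |(v.2 : ℝ)| :=
  Complex.norm_le_abs_re_add_abs_im (pt v)

/-- The realizations of 653. -/
theorem rl_of_real {P : Sh2} (hP : P.Ok) {N : ℕ} (hN : 12 ≤ N) (h4 : 4 ∣ N) {s : ℤ × ℤ} {D : ZDom}
    (hf : rf D.f = s) {g : ℕ → ℕ}
    (hR : RealP P.q P.S N s (P.k * N + N / 2 + 1) ((P.m - P.k) * N) D.p D.k D.S g) :
    Rl P N s D where
  k_pos := hR.k_pos
  k_lt := hR.k_lt
  poly := hR.poly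
  encl := hR.encl
  face := hf
  par := by
    have hN0 : 0 < N := by omega
    refine ⟨g, hR.mono, hR.f_zero, hR.f_k, hR.f_n, hR.f_step, fun i hi => ?_⟩
    obtain ⟨n1, n2⟩ := hR.near i hi
    set c := cc P.q N (P.k * N + N / 2 + 1) s (g i) with hc
    have h1 : pt c = pt s + N * PF6 P.q 1 (((g i : ℝ) + P.k * N + N / 2) / N) +
        pt (dir (pdir P.q ((g i + P.k * N + N / 2) / N))) := by
      have e1 : c = Enl.PN P.q N (g i + P.k * N + N / 2 + 1) + s := by
        rw [hc, cc]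
        congr 2
        ring
      rw [e1, pt_add, Enl.PN_succ hN0 hP.poly, pt_add, pt_PN hP.poly hN0]
      have e2 : ((g i + P.k * N + N / 2 : ℕ) : ℝ) = (g i : ℝ) + P.k * N + N / 2 := by
        obtain ⟨u, rfl⟩ := h4
        have e3 : 4 * u / 2 = 2 * u := by omega
        rw [e3]
        push_cast
        ring
      rw [e2]
      ring
    have h2 : ‖pt (ro (D.p i) - c)‖ ≤ 4 := by
      refine (norm_pt_le _).trans ?_
      have a1 : |((ro (D.p i) - c).1 : ℝ)| ≤ 2 := by exact_mod_cast n1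
      have a2 : |((ro (D.p i) - c).2 : ℝ)| ≤ 2 := by exact_mod_cast n2
      linarith
    rw [dist_eq_norm]
    have h3 : pt (ro (D.p i)) - (pt s + N * PF6 P.q 1 (((g i : ℝ) + P.k * N + N / 2) / N)) =
        pt (ro (D.p i) - c) + pt (dir (pdir P.q ((g i + P.k * N + N / 2) / N))) := by
      rw [pt_sub, h1]
      ring
    rw [h3]
    refine (norm_add_le _ _).trans ?_
    have := norm_pt_dir (pdir P.q ((g i + P.k * N + N / 2) / N))
    linarith
  zig := by
    have hN0 : 0 < N := by omega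
    intro r hr m' hm'
    have hkm : P.k * N + (P.m - P.k) * N = P.m * N := by
      rw [← Nat.add_mul, Nat.add_sub_cancel' hP.k_lt.le]
    have hpd : pdir P.q P.m = r := by
      have h1 := Enl.pdir_add (p := P.q) 0
      rw [zero_add] at h1
      rw [h1]
      unfold pdir
      rw [Nat.cast_zero, zero_add, hr, add_sub_cancel_left, Enl.dirOf_dir]
    have hstep : ∀ j : ℕ, j < N → Enl.PN P.q N (P.m * N + j + 1) =
        Enl.PN P.q N (P.m * N + j) + dir r := by
      intro j hj
      rw [Enl.PN_succ hN0 hP.poly]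
      have e1 : (P.m * N + j) / N = P.m := by
        rw [add_comm, Nat.add_mul_div_right _ _ hN0, Nat.div_eq_of_lt hj, zero_add]
      rw [e1, hpd]
    have hcc : ∀ i j : ℕ, i + (P.k * N + N / 2 + 1) = P.m * N + j → j < N →
        cc P.q N (P.k * N + N / 2 + 1) s (i + 1) = cc P.q N (P.k * N + N / 2 + 1) s i + dir r := by
      intro i j hij hj
      unfold cc
      have e1 : i + 1 + (P.k * N + N / 2 + 1) = P.m * N + j + 1 := by omega
      rw [e1, hij, hstep j hj]
      abel
    have hk1 : N ≤ P.k * N := Nat.le_mul_of_pos_left N hP.k_pos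
    have hk2 : N ≤ (P.m - P.k) * N := Nat.le_mul_of_pos_left N (Nat.sub_pos_of_lt hP.k_lt)
    have hev : Even (N / 2 - 2) := by
      obtain ⟨u, rfl⟩ := h4
      exact ⟨u - 1, by omega⟩
    have hr4 : r + 3 + 1 = r := by
      rw [add_assoc]
      have : (3 + 1 : Fin 4) = 0 := rfl
      rw [this, add_zero]
    rw [hr4]
    have hm2 : m' < N / 2 - 2 := by omega
    constructor
    · refine hR.wired (N / 2 - 2) r hev (by omega) (fun i h1 h2 => ?_) m' hm2
      exact hcc i (i + (P.k * N + N / 2 + 1) - P.m * N) (by omega) (by omega)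
    · refine hR.free (N / 2 - 2) r hev (by omega) (fun i h1 h2 => ?_) m' hm2
      exact hcc i (i + (P.k * N + N / 2 + 1) - P.m * N) (by omega) (by omega)

/-- **Convergence of the probabilities of `L` in the realizations of 653.** -/
theorem shLim_real {Re : Sh2 → ℕ → ℤ × ℤ → ZDom → Prop}
    (hRe : ∀ (P : Sh2) (N : ℕ) (s : ℤ × ℤ) (D : ZDom), Re P N s D → rf D.f = s ∧
      ∃ g : ℕ → ℕ, RealP P.q P.S N s (P.k * N + N / 2 + 1) ((P.m - P.k) * N) D.p D.k D.S g)
    {q : ℝ} (hq : 0 < q) {h : ℂ → ℝ} (hF : PasF h) (hlim : PasLim (Stair 3) q h) :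
    ShLim Re q h := by
  intro P hP x hx N s E hN h4 hs hE
  refine shLim_rl hq hF hlim P hP x hx N s E hN h4 hs ?_
  filter_upwards [hE, hN.eventually_ge_atTop 12] with n hn hn'
  obtain ⟨h1, g, h2⟩ := hRe _ _ _ _ hn
  exact rl_of_real hP hn' (h4 n) h1 h2

end Vale.Agent.P167.H212.L
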