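import Vale.Agent.P167.H212.L.Tr

/-!
# P167, Stage II: convergence for the shapes, file 3: the probability of `L` is invariant under the
rotation by 90 degrees

`PL_rt : PL q (R ∘ p) k (S.image Rs) (Rs f) = PL q p k S f`.
-/

set_option autoImplicit false

namespace Vale.Agent.P167.H212.L

open Relation Vale.Agent.P167.FK Vale.Agent.P167.H192 Vale.Agent.P167.H718 Vale.Agent.P167.H397.Q
open Vale.Agent.P145.FB (PStep)
open Vale.Agent.P167.E6 (wiredOpen edges Encloses IsPolygon dir face)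

/-- The rotation of the vertices. -/
def R (v : ℤ × ℤ) : ℤ × ℤ := (-v.2, v.1)

/-- The inverse rotation of the vertices. -/
def Ri (v : ℤ × ℤ) : ℤ × ℤ := (v.2, -v.1)

/-- The rotation of the squares. -/
def Rs (v : ℤ × ℤ) : ℤ × ℤ := (-1 - v.2, v.1)

theorem Ri_R (v : ℤ × ℤ) : Ri (R v) = v := by
  unfold Ri R
  simp

theorem R_Ri (v : ℤ × ℤ) : R (Ri v) = v := by
  unfold Ri R
  simp

theorem R_inj : Function.Injective R := fun a b h => by rw [← Ri_R a, h, Ri_R]

/-! ### The event -/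

theorem pStep_R {F F' : Set (ℤ × ℤ)} (h : ∀ v, v ∈ F' ↔ Rs v ∈ F) {u v : ℤ × ℤ} :
    PStep F' u v ↔ PStep F (R u) (R v) := by
  unfold PStep
  constructor
  · rintro ⟨h1, h2, h3⟩
    refine ⟨by simp only [R]; omega, by simp only [R]; omega, ?_⟩
    rw [h] at h3
    convert h3 using 1
    unfold R Rs
    ext
    · simp only
      omega
    · rfl
  · rintro ⟨h1, h2, h3⟩
    simp only [R] at h1 h2
    refine ⟨by omega, by omega, ?_⟩
    rw [h]
    convert h3 using 1
    unfold R Rs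
    ext
    · simp only
      omega
    · rfl

theorem rtg_R {F F' : Set (ℤ × ℤ)} (h : ∀ v, v ∈ F' ↔ Rs v ∈ F) {u v : ℤ × ℤ} :
    ReflTransGen (PStep F') u v ↔ ReflTransGen (PStep F) (R u) (R v) := by
  constructor
  · intro h1
    exact h1.lift R fun a b hab => (pStep_R h).1 hab
  · intro h1
    have h2 := h1.lift Ri (p := PStep F') fun a b hab => (pStep_R h).2 (by
      rw [R_Ri, R_Ri]
      exact hab)
    simp only [Function.onFun, Ri_R] at h2
    exact h2

/-- The ends of an open edge are joined. -/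
theorem step_ab {ω : Cfg} {v : ℤ × ℤ} (h : ω v = true) : PC ω (pa v) (pb v) := by
  refine ReflTransGen.single ?_
  unfold pa pb
  by_cases h1 : Even (v.1 + v.2)
  · rw [if_pos h1, if_pos h1]
    refine ⟨Or.inl rfl, Or.inl rfl, ?_⟩
    have e : (min v.1 (v.1 + 1), min v.2 (v.2 + 1)) = v := by
      ext <;> simp
    show ω (min v.1 (v.1 + 1), min v.2 (v.2 + 1)) = true
    rw [e, h]
  · rw [if_neg h1, if_neg h1]
    refine ⟨Or.inl rfl, Or.inr (by simp), ?_⟩
    have e : (min v.1 (v.1 + 1), min (v.2 + 1) v.2) = v := by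
      ext <;> simp
    show ω (min v.1 (v.1 + 1), min (v.2 + 1) v.2) = true
    rw [e, h]

theorem R_pa (v : ℤ × ℤ) : R (pa v) = pa (Rs v) ∨ R (pa v) = pb (Rs v) := by
  have h : Even ((Rs v).1 + (Rs v).2) ↔ ¬ Even (v.1 + v.2) := by
    simp only [Rs, Int.even_iff]
    omega
  by_cases h1 : Even (v.1 + v.2)
  · right
    unfold pa pb
    rw [if_pos h1, if_neg (fun h2 => h.1 h2 h1)]
    unfold R Rs
    ext
    · simp only
      omega
    · rfl
  · left
    unfold pa
    rw [if_neg h1, if_pos (h.2 h1)]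
    unfold R Rs
    ext
    · simp only
      omega
    · rfl

theorem blk_R (ω : Cfg) (w v : ℤ × ℤ) : v ∈ blk (ω ∘ Rs) w ↔ Rs v ∈ blk ω (R w) := by
  unfold blk
  simp only [Set.mem_ofPred_eq, Function.comp_apply]
  refine and_congr_right fun hv => ?_
  have h1 : PC (ω ∘ Rs) w (pa v) ↔ PC ω (R w) (R (pa v)) :=
    rtg_R (F := op ω) (F' := op (ω ∘ Rs)) fun v => Iff.rfl
  rw [h1]
  have h2 : PC ω (pa (Rs v)) (pb (Rs v)) := step_ab hv
  rcases R_pa v with h3 | h3
  · rw [h3]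
  · rw [h3]
    exact ⟨fun h => h.trans (PC_symm h2), fun h => h.trans h2⟩

/-- **The event is rotated.** -/
theorem LZ_R (ω : Cfg) (w s : ℤ × ℤ) : ω ∘ Rs ∈ LZ w s ↔ ω ∈ LZ (R w) (R s) := by
  have h1 : {t : ℤ × ℤ | ReflTransGen (PStep (blk (ω ∘ Rs) w)ᶜ) s t} =
      R ⁻¹' {t : ℤ × ℤ | ReflTransGen (PStep (blk ω (R w))ᶜ) (R s) t} := by
    ext t
    exact rtg_R fun v => not_congr (blk_R ω w v)
  have hsurj : Function.Surjective R := fun a => ⟨Ri a, R_Ri a⟩
  unfold LZ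
  rw [Set.mem_ofPred_eq, Set.mem_ofPred_eq, h1]
  constructor
  · intro h
    have h2 := h.image R
    rwa [Set.image_preimage_eq _ hsurj] at h2
  · intro h
    exact h.preimage R_inj.injOn

/-! ### The squares -/

theorem map_R_inj : Function.Injective (Sym2.map R : Sym2 (ℤ × ℤ) → _) :=
  Sym2.map.injective R_inj

theorem ed_Rs (u : ℤ × ℤ) : ed (Rs u) = Sym2.map R (ed u) := by
  have h : Even ((Rs u).1 + (Rs u).2) ↔ ¬ Even (u.1 + u.2) := by
    simp only [Rs, Int.even_iff]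
    omega
  unfold ed
  rw [Sym2.map_mk]
  unfold eb ea
  by_cases h1 : Even (u.1 + u.2)
  · rw [if_pos h1, if_neg (fun h2 => h.1 h2 h1)]
    rw [Int.even_iff] at h1
    simp only [R, Rs, Sym2.eq_iff, Prod.mk.injEq]
    omega
  · rw [if_neg h1, if_pos (h.2 h1)]
    rw [Int.even_iff] at h1
    simp only [R, Rs, Sym2.eq_iff, Prod.mk.injEq]
    omega

theorem edges_R (S : Finset (ℤ × ℤ)) :
    edges (S.image Rs) = (edges S).image (Sym2.map R) := by
  unfold edges
  rw [Finset.image_biUnion, Finset.biUnion_image]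
  refine Finset.biUnion_congr rfl fun f _ => ?_
  obtain ⟨x, y⟩ := f
  simp only [Finset.image_insert, Finset.image_singleton, Sym2.map_mk]
  have e1 : Rs (x, y) = R (x, y + 1) := by
    unfold R Rs
    ext
    · simp only
      omega
    · rfl
  have e2 : Rs (x, y) + (1, 0) = R (x, y) := by
    unfold R Rs
    ext
    · simp
      omega
    · simp
  have e3 : Rs (x, y) + (0, 1) = R (x + 1, y + 1) := by
    unfold R Rs
    ext
    · simp
      omega
    · simp
  have e4 : Rs (x, y) + (1, 1) = R (x + 1, y) := by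
    unfold R Rs
    ext
    · simp
      omega
    · simp
  rw [e2, e3, e4, e1]
  simp only [Prod.mk_add_mk, add_zero]
  ext e
  simp only [Finset.mem_insert, Finset.mem_singleton]
  rw [Sym2.eq_swap (a := R (x, y + 1)) (b := R (x, y)),
    Sym2.eq_swap (a := R (x + 1, y + 1)) (b := R (x + 1, y))]
  tauto

variable {n : ℕ}

theorem wE_R (p : ZMod n → ℤ × ℤ) (k : ℕ) :
    wE (fun i => R (p i)) k = (wE p k).image (Sym2.map R) := by
  unfold wE
  rw [Finset.image_image]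
  rfl

/-- The squares of the rotated domain. -/
theorem mem_Dq_R (S : Finset (ℤ × ℤ)) (p : ZMod n → ℤ × ℤ) (k : ℕ) (u : ℤ × ℤ) :
    Rs u ∈ Dq (S.image Rs) (fun i => R (p i)) k ↔ u ∈ Dq S p k := by
  rw [mem_Dq', mem_Dq', ed_Rs, edges_R, wE_R]
  constructor
  · rintro ⟨h1, h2⟩
    refine ⟨?_, fun h => h2 (Finset.mem_image_of_mem _ h)⟩
    obtain ⟨e, he, h3⟩ := Finset.mem_image.1 h1
    rwa [← map_R_inj h3]
  · rintro ⟨h1, h2⟩
    refine ⟨Finset.mem_image_of_mem _ h1, fun h => h2 ?_⟩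
    obtain ⟨e, he, h3⟩ := Finset.mem_image.1 h
    rwa [← map_R_inj h3]

theorem etaQ_R (p : ZMod n → ℤ × ℤ) (k : ℕ) (u : ℤ × ℤ) :
    etaQ (fun i => R (p i)) k (Rs u) = etaQ p k u := by
  rw [Bool.eq_iff_iff]
  unfold etaQ
  rw [cfg_true, cfg_true, ed_Rs, wE_R, Finset.mem_coe, Finset.mem_coe]
  constructor
  · intro h
    obtain ⟨e, he, h3⟩ := Finset.mem_image.1 h
    rwa [← map_R_inj h3]
  · intro h
    exact Finset.mem_image_of_mem _ h

theorem R_add (u v : ℤ × ℤ) : R (u + v) = R u + R v := by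
  unfold R
  ext
  · simp
    omega
  · simp

theorem R_dir (r : Fin 4) : R (dir r) = dir (r + 1) := by
  fin_cases r <;> rfl

theorem isPolygon_R {p : ZMod n → ℤ × ℤ} (hp : IsPolygon p) :
    IsPolygon fun i => R (p i) := by
  refine ⟨hp.1, fun a b h => hp.2.1 (R_inj h), fun i => ?_⟩
  obtain ⟨r, hr⟩ := hp.2.2 i
  refine ⟨r + 1, ?_⟩
  simp only [hr]
  rw [R_add, R_dir]

theorem Rs_inj : Function.Injective Rs := by
  rintro ⟨a, b⟩ ⟨c, d⟩ h
  simp only [Rs, Prod.mk.injEq] at h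
  ext
  · exact h.2
  · simp only
    omega

theorem Rs_face (v : ℤ × ℤ) (r : Fin 4) : face (R v) (r + 1) = Rs (face v r) := by
  obtain ⟨x, y⟩ := v
  fin_cases r <;> simp [face, R, Rs] <;> omega

theorem encloses_R {p : ZMod n → ℤ × ℤ} {S : Finset (ℤ × ℤ)} (hE : Encloses p S) :
    Encloses (fun i => R (p i)) (S.image Rs) := by
  intro v r
  have h1 : ∀ (u : ℤ × ℤ), Rs u ∈ S.image Rs ↔ u ∈ S := fun u =>
    Rs_inj.mem_finset_image
  have h2 : face v r = Rs (face (Ri v) (r - 1)) := by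
    rw [← Rs_face, R_Ri, sub_add_cancel]
  have h3 : face v (r - 1) = Rs (face (Ri v) (r - 1 - 1)) := by
    rw [← Rs_face, R_Ri, sub_add_cancel]
  rw [h2, h3, h1, h1, ← hE (Ri v) (r - 1)]
  constructor
  · rintro ⟨i, h3, h4⟩
    refine ⟨i, by rw [← h3, Ri_R], ?_⟩
    apply R_inj
    rw [R_add, R_Ri, R_dir, sub_add_cancel]
    exact h4
  · rintro ⟨i, h3, h4⟩
    refine ⟨i, by simp only [h3, R_Ri], ?_⟩
    simp only [h4]
    rw [R_add, R_Ri, R_dir, sub_add_cancel]

/-- The rotation is a symmetry of the model. -/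
theorem Ex_R {Q : ℝ} (hQ : 0 < Q) (D : Finset (ℤ × ℤ)) {η : Cfg} (hη : Good η) (F : Cfg → ℝ) :
    Ex Q D (η ∘ Rs) F = Ex Q (D.image Rs) η (fun ω => F (ω ∘ Rs)) := by
  have h1 := f_sym (fun v => (-1 - v.1, v.2)) (by simp [syms])
  have h2 := f_sym (fun v => (v.2, v.1)) (by simp [syms])
  have e1 : η ∘ Rs = (η ∘ fun v : ℤ × ℤ => (-1 - v.1, v.2)) ∘ fun v : ℤ × ℤ => (v.2, v.1) := rfl
  rw [e1, h2.2 Q D _ F hQ (h1.1 η hη), h1.2 Q _ _ _ hQ hη, Finset.image_image]
  rfl

/-- **The probability of `L` is invariant under the rotation.** -/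
theorem PL_rt {q : ℝ} (hq : 0 < q) {p : ZMod n → ℤ × ℤ} {k : ℕ} {S : Finset (ℤ × ℤ)} {f : ℤ × ℤ}
    (hp : IsPolygon p) (hE : Encloses p S) :
    PL q (fun i => R (p i)) k (S.image Rs) (Rs f) = PL q p k S f := by
  have hQ : 0 < √q := Real.sqrt_pos.2 hq
  unfold PL
  rw [mean_eq_Ex hq hp hE, mean_eq_Ex hq (isPolygon_R hp) (encloses_R hE)]
  have h1 : Dq (S.image Rs) (fun i => R (p i)) k = (Dq S p k).image Rs := by
    ext u
    have hu : Rs (u.2, -1 - u.1) = u := by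
      unfold Rs
      ext <;> simp
    rw [← hu, mem_Dq_R, Rs_inj.mem_finset_image]
  have h2 : etaQ p k = etaQ (fun i => R (p i)) k ∘ Rs := by
    funext u
    exact (etaQ_R p k u).symm
  rw [h1, h2, Ex_R hQ _ good_etaQ]
  congr 1
  funext ω
  have h4 : ω ∘ Rs ∈ LZ (ro (p (-1))) (rf f) ↔ ω ∈ LZ (ro (R (p (-1)))) (rf (Rs f)) := by
    rw [LZ_R]
    have e1 : R (ro (p (-1))) = ro (R (p (-1))) := by
      unfold ro R
      ext <;> simp <;> ring
    have e2 : R (rf f) = rf (Rs f) := by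
      unfold R Rs rf
      ext <;> simp <;> ring
    rw [e1, e2]
  by_cases h5 : ω ∘ Rs ∈ LZ (ro (p (-1))) (rf f)
  · rw [Set.indicator_of_mem h5, Set.indicator_of_mem (h4.1 h5)]
    rfl
  · rw [Set.indicator_of_notMem h5, Set.indicator_of_notMem fun h => h5 (h4.2 h)]

end Vale.Agent.P167.H212.L
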