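import Vale.Agent.P167.H634.Sch.Sch
import Vale.Agent.P167.H212.L.Defs

/-!
# P167, Stage II: convergence for the shapes, file 1: the parametrisation of the boundary of a shape

`sg k m` is the strictly increasing, continuous parametrisation with `sg 0 = k + 1/2`,
`sg π = m + 1/2`, `sg (t + 2 π) = sg t + m`.  `exists_Phi`: the homeomorphism of the plane for the
rotated shape.
-/

set_option autoImplicit false

namespace Vale.Agent.P167.H212.L

open Filter Topology Set Metric
open Vale.Agent.P153.R2.R1 (toCH toCH_apply pl pl_eq pl_int pl_add pl_mem_segment continuous_pl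
  monotone_pl pl_mem_Icc IsU)
open Vale.Agent.P153.R2.Final (circ toC dom IsUniformizer)
open Vale.Agent.P167.E6 (PF6 PV6 D6 IsPolygon Encloses pt dir region)

/-! ### The parametrisation -/

/-- The values at the integers. -/
noncomputable def sgP (k m : ℕ) (i : ℤ) : ℝ :=
  (if Even i then (k : ℝ) else m) + 1 / 2 + ((i / 2 : ℤ) : ℝ) * m

/-- The parametrisation. -/
noncomputable def sg (k m : ℕ) (t : ℝ) : ℝ := pl (sgP k m) (t / Real.pi)

theorem sgP_succ {k m : ℕ} (hk : 0 < k) (hm : k < m) (i : ℤ) : sgP k m i < sgP k m (i + 1) := by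
  have h1 : (0 : ℝ) < k := by exact_mod_cast hk
  have h2 : (k : ℝ) < m := by exact_mod_cast hm
  unfold sgP
  rcases Int.even_or_odd i with h | h
  · have h3 : ¬ Even (i + 1) := by rw [Int.not_even_iff_odd]; exact h.add_one
    rw [if_pos h, if_neg h3]
    have h4 : (i + 1) / 2 = i / 2 := by
      obtain ⟨j, rfl⟩ := h
      omega
    rw [h4]
    linarith
  · have h3 : Even (i + 1) := h.add_one
    have h3' : ¬ Even i := by rwa [Int.not_even_iff_odd]
    rw [if_neg h3', if_pos h3]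
    have h4 : (i + 1) / 2 = i / 2 + 1 := by
      obtain ⟨j, rfl⟩ := h
      omega
    rw [h4]
    push_cast
    linarith

theorem sgP_mono {k m : ℕ} (hk : 0 < k) (hm : k < m) : StrictMono (sgP k m) :=
  strictMono_int_of_lt_succ (sgP_succ hk hm)

theorem strictMono_pl {s : ℤ → ℝ} (hs : StrictMono s) : StrictMono (pl s) := by
  intro x y hxy
  rcases (Int.floor_le_floor hxy.le).lt_or_eq with h | h
  · have h1 : pl s x < s (⌊x⌋ + 1) := by
      rw [pl_eq s ⌊x⌋ (Int.floor_le x) (Int.lt_floor_add_one x).le]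
      have h4 : s ⌊x⌋ < s (⌊x⌋ + 1) := hs (by omega)
      have h5 := Int.lt_floor_add_one x
      simp only [smul_eq_mul]
      nlinarith
    exact h1.trans_le ((hs.monotone (by omega)).trans (pl_mem_Icc hs.monotone y).1)
  · rw [pl_eq s ⌊x⌋ (Int.floor_le x) (Int.lt_floor_add_one x).le,
      pl_eq s ⌊x⌋ ((Int.floor_le x).trans hxy.le) (by rw [h]; exact (Int.lt_floor_add_one y).le)]
    have h4 : s ⌊x⌋ < s (⌊x⌋ + 1) := hs (by omega)
    simp only [smul_eq_mul]
    nlinarith

theorem sg_strictMono {k m : ℕ} (hk : 0 < k) (hm : k < m) : StrictMono (sg k m) := by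
  intro x y h
  exact strictMono_pl (sgP_mono hk hm) (div_lt_div_of_pos_right h Real.pi_pos)

theorem continuous_sg (k m : ℕ) : Continuous (sg k m) :=
  (continuous_pl _).comp (continuous_id.div_const _)

theorem sg_add (k m : ℕ) (t : ℝ) : sg k m (t + 2 * Real.pi) = sg k m t + m := by
  have h := pl_add (sgP k m) (sgP k m) 2 (m : ℝ) (fun i => by
    unfold sgP
    have h1 : Even (i + 2) ↔ Even i := by
      simp
    have h2 : (i + 2) / 2 = i / 2 + 1 := by omega
    rw [h2]
    simp only [h1]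
    push_cast
    ring) (t / Real.pi)
  unfold sg
  rw [add_div, mul_div_cancel_right₀ _ Real.pi_ne_zero]
  push_cast at h
  exact h

theorem sg_zero (k m : ℕ) : sg k m 0 = k + 1 / 2 := by
  unfold sg
  rw [zero_div]
  have := pl_int (sgP k m) 0
  push_cast at this
  rw [this]
  simp [sgP]

theorem sg_pi (k m : ℕ) : sg k m Real.pi = m + 1 / 2 := by
  unfold sg
  rw [div_self Real.pi_ne_zero]
  have := pl_int (sgP k m) 1
  push_cast at this
  rw [this]
  simp [sgP]

theorem sg_surj {k m : ℕ} (hk : 0 < k) (hm : k < m) : Function.Surjective (sg k m) :=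
  H634.Sch.surjective_of_step (continuous_sg k m) (by exact_mod_cast (hk.trans hm)) (sg_add k m)

/-- The inverse function. -/
theorem exists_inv {k m : ℕ} (hk : 0 < k) (hm : k < m) : ∃ τ : ℝ → ℝ, Monotone τ ∧
    (∀ y, sg k m (τ y) = y) ∧ τ (k + 1 / 2) = 0 ∧ τ (m + 1 / 2) = Real.pi ∧
    τ (k + 1 / 2 + m) = 2 * Real.pi := by
  set e := (sg_strictMono hk hm).orderIsoOfSurjective _ (sg_surj hk hm) with he
  have h1 : ∀ y, sg k m (e.symm y) = y := fun y => e.apply_symm_apply y
  have h2 : ∀ t, e.symm (sg k m t) = t := fun t => e.symm_apply_apply t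
  refine ⟨e.symm, e.symm.monotone, h1, ?_, ?_, ?_⟩
  · have := h2 0
    rwa [sg_zero] at this
  · have := h2 Real.pi
    rwa [sg_pi] at this
  · have := h2 (0 + 2 * Real.pi)
    rwa [sg_add, sg_zero, zero_add] at this

/-! ### The homeomorphism for the rotated shape -/

theorem one_add_I_ne : (1 + Complex.I : ℂ) ≠ 0 := by
  intro h
  have := congrArg Complex.re h
  simp at this

/-- Division by `1 + I` in the real plane. -/
noncomputable def rotH : (ℝ × ℝ) ≃ₜ (ℝ × ℝ) :=
  toCH.trans ((Homeomorph.mulRight₀ ((1 + Complex.I)⁻¹ : ℂ) (inv_ne_zero one_add_I_ne)).trans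
    toCH.symm)

theorem toC_rotH (z : ℝ × ℝ) : toC (rotH z) = toC z / (1 + Complex.I) := by
  have h : toC (rotH z) = toCH (rotH z) := rfl
  rw [h, rotH]
  simp only [Homeomorph.trans_apply, Homeomorph.apply_symm_apply]
  show toCH z * (1 + Complex.I)⁻¹ = _
  rw [div_eq_mul_inv]
  rfl

theorem exists_Phi {P : Sh2} (hP : P.Ok) : ∃ Φ : (ℝ × ℝ) ≃ₜ (ℝ × ℝ),
    (∀ t, toC (Φ (circ t)) = PF6 P.q 1 (sg P.k P.m t) / (1 + Complex.I)) ∧
      toC '' dom Φ = (fun z => z / (1 + Complex.I)) '' interior (region 1 P.S) := by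
  obtain ⟨Φ, h1, h2⟩ := H634.Sch.sch_poly (δ := 1) one_pos hP.poly hP.encl (continuous_sg P.k P.m)
    (sg_strictMono hP.k_pos hP.k_lt) (sg_add P.k P.m)
  refine ⟨Φ.trans rotH, fun t => ?_, ?_⟩
  · rw [Homeomorph.trans_apply, toC_rotH, h1]
  · have h3 : toC '' dom (Φ.trans rotH) = (fun z => z / (1 + Complex.I)) '' (toC '' dom Φ) := by
      unfold dom
      rw [image_image, image_image, image_image]
      refine image_congr fun z _ => ?_
      exact toC_rotH (Φ z)
    rw [h3, h2]
    rfl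

/-! ### The marks -/

theorem PF6_half {P : Sh2} (j : ℕ) : PF6 P.q 1 (j + 1 / 2) =
    pt (P.q j) + (1 / 2 : ℝ) * pt (P.q (j + 1) - P.q j) := by
  unfold PF6
  rw [pl_eq (PV6 P.q 1) j (x := j + 1 / 2) (by push_cast; linarith) (by push_cast; linarith)]
  unfold PV6
  have h1 : pt (P.q (j + 1) - P.q j) = pt (P.q (j + 1)) - pt (P.q j) := by
    apply Complex.ext <;> simp [pt]
  rw [h1]
  simp only [Complex.real_smul]
  push_cast
  ring

theorem PF6_a {P : Sh2} : PF6 P.q 1 (P.k + 1 / 2) = P.a := PF6_half P.k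

theorem PF6_b {P : Sh2} : PF6 P.q 1 (P.m + 1 / 2) = P.b := by
  rw [PF6_half P.m]
  have h1 : ((P.m : ℕ) : ZMod P.m) = 0 := ZMod.natCast_self P.m
  rw [h1, zero_add, Sh2.b]

/-- The uniformizer of the rotated shape. -/
theorem isUniformizer {P : Sh2} {φ : ℂ → ℂ}
    (hφ : IsU φ (interior (region 1 P.S)) P.a P.b) {Φ : (ℝ × ℝ) ≃ₜ (ℝ × ℝ)}
    (h1 : ∀ t, toC (Φ (circ t)) = PF6 P.q 1 (sg P.k P.m t) / (1 + Complex.I))
    (h2 : toC '' dom Φ = (fun z => z / (1 + Complex.I)) '' interior (region 1 P.S)) :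
    IsUniformizer Φ (fun z => φ z / (1 + Complex.I)) := by
  refine ⟨hφ.diff.div_const _, ?_, ?_, hφ.cont.div_const _, ?_, ?_⟩
  · intro x hx y hy hxy
    exact hφ.inj hx hy ((div_left_inj' one_add_I_ne).1 hxy)
  · rw [h2, ← hφ.img, image_image]
  · show φ 0 / (1 + Complex.I) = _
    rw [h1, sg_zero, PF6_a, hφ.zero]
  · rw [h1, sg_pi, PF6_b]
    exact hφ.infty.div_const _

end Vale.Agent.P167.H212.L
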