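import Vale.Agent.P167.H212.L.Rt
import Vale.Agent.P167.H212.L.Sg
import Vale.Agent.P167.QE.Ft

/-!
# P167, Stage II: convergence for the shapes, file 4: the approximation and the limit

`Rl P N s D` : the lattice domain `D` realizes the `N`-fold enlargement of the shape `P` with the origin
at the dual site `s`.  `shLim_rl : PasF h → PasLim (Stair 3) q h → ShLim Rl q h`.
-/

set_option autoImplicit false

namespace Vale.Agent.P167.H212.L

open Filter Topology Set Metric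
open Vale.Agent.P153.R2.R1 (toCH toCH_apply IsU)
open Vale.Agent.P153.R2.Final (circ toC dom IsUniformizer)
open Vale.Agent.P167.E6 (PF6 PV6 D6 IsPolygon Encloses pt dir region Approx continuous_PF6)
open Vale.Agent.P167.H192 (ro rf)
open Vale.Agent.P167.H397.Q (LZ PL PasF PasLim)
open Vale.Agent.P167.QE (Stair)

/-! ### Realizations -/

/-- The lattice domain `D` realizes the `N`-fold enlargement of the shape `P`, with the origin at the
dual site `s`. -/
structure Rl (P : Sh2) (N : ℕ) (s : ℤ × ℤ) (D : ZDom) : Prop where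
  k_pos : 0 < D.k
  k_lt : D.k < D.n
  poly : IsPolygon D.p
  encl : Encloses D.p D.S
  face : rf D.f = s
  par : ∃ g : ℕ → ℕ, Monotone g ∧ g 0 = 0 ∧ g D.k = (P.m - P.k) * N ∧ g D.n = P.m * N ∧
    (∀ i, g (i + 1) ≤ g i + 4) ∧ ∀ i < D.n,
      dist (pt (ro (D.p i))) (pt s + N * PF6 P.q 1 (((g i : ℝ) + P.k * N + N / 2) / N)) ≤ 10
  zig : ∀ r : Fin 4, P.q 1 = P.q 0 + dir r → ∀ m : ℕ, 4 * m ≤ N →
    D.p ((D.k : ZMod D.n) + m + 1) =
      D.p ((D.k : ZMod D.n) + m) + (if Even m then dir (r + 3) else dir (r + 3 + 1)) ∧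
    D.p ((D.k : ZMod D.n) - m) =
      D.p ((D.k : ZMod D.n) - m - 1) + (if Even m then dir (r + 3) else dir (r + 3 + 1))

/-! ### Multiplication in the plane -/

/-- Multiplication by `c` in the real plane. -/
noncomputable def mulH (c : ℂ) (hc : c ≠ 0) : (ℝ × ℝ) ≃ₜ (ℝ × ℝ) :=
  toCH.trans ((Homeomorph.mulRight₀ c hc).trans toCH.symm)

theorem toC_mulH (c : ℂ) (hc : c ≠ 0) (z : ℝ × ℝ) : toC (mulH c hc z) = toC z * c := by
  have h : toC (mulH c hc z) = toCH (mulH c hc z) := rfl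
  rw [h, mulH]
  simp only [Homeomorph.trans_apply, Homeomorph.apply_symm_apply]
  rfl

theorem uniformizer_mul {Φ : (ℝ × ℝ) ≃ₜ (ℝ × ℝ)} {ψ : ℂ → ℂ} (h : IsUniformizer Φ ψ) (c : ℂ)
    (hc : c ≠ 0) : IsUniformizer (Φ.trans (mulH c hc)) (fun z => ψ z * c) := by
  obtain ⟨h1, h2, h3, h4, h5, h6⟩ := h
  refine ⟨h1.mul_const c, ?_, ?_, h4.mul continuousOn_const, ?_, ?_⟩
  · intro x hx y hy hxy
    exact h2 hx hy (mul_right_cancel₀ hc hxy)
  · have h7 : toC '' dom (Φ.trans (mulH c hc)) = (fun z => z * c) '' (toC '' dom Φ) := by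
      unfold dom
      rw [image_image, image_image, image_image]
      refine image_congr fun z _ => ?_
      exact toC_mulH c hc (Φ z)
    rw [h7, ← h3, image_image]
  · show ψ 0 * c = _
    rw [h5, Homeomorph.trans_apply, toC_mulH]
  · rw [Homeomorph.trans_apply, toC_mulH]
    exact h6.mul_const c

/-! ### The rotated and translated domains -/

theorem pt_R (v : ℤ × ℤ) : pt (R v) = pt v * Complex.I := by
  apply Complex.ext <;> simp [pt, R]

theorem pt_Rj (j : ℕ) (v : ℤ × ℤ) : pt (R^[j] v) = pt v * Complex.I ^ j := by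
  induction j with
  | zero => simp
  | succ j ih => rw [Function.iterate_succ_apply', pt_R, ih, pow_succ, mul_assoc]

theorem pt_sub (u v : ℤ × ℤ) : pt (u - v) = pt u - pt v := by
  apply Complex.ext <;> simp [pt]

theorem pt_add (u v : ℤ × ℤ) : pt (u + v) = pt u + pt v := by
  apply Complex.ext <;> simp [pt]

theorem pt_ro' (u : ℤ × ℤ) : pt (ro u) = (1 + Complex.I) * pt u := by
  apply Complex.ext
  · simp [pt, ro]
  · simp [pt, ro]
    ring

/-- The iterated rotation. -/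
theorem iter_all {n : ℕ} {q : ℝ} (hq : 0 < q) {p : ZMod n → ℤ × ℤ} {k : ℕ} {S : Finset (ℤ × ℤ)}
    {f : ℤ × ℤ} (hp : IsPolygon p) (hE : Encloses p S) (j : ℕ) :
    IsPolygon (fun i => R^[j] (p i)) ∧ Encloses (fun i => R^[j] (p i)) (S.image Rs^[j]) ∧
      PL q (fun i => R^[j] (p i)) k (S.image Rs^[j]) (Rs^[j] f) = PL q p k S f := by
  induction j with
  | zero => exact ⟨hp, by simpa using hE, by simp⟩
  | succ j ih =>
    obtain ⟨h1, h2, h3⟩ := ih
    have e1 : (fun i => R^[j + 1] (p i)) = fun i => R (R^[j] (p i)) := by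
      funext i
      rw [Function.iterate_succ_apply']
    have e2 : S.image Rs^[j + 1] = (S.image Rs^[j]).image Rs := by
      rw [Finset.image_image, ← Function.iterate_succ']
    rw [e1, e2]
    refine ⟨isPolygon_R h1, encloses_R h2, ?_⟩
    rw [Function.iterate_succ_apply', PL_rt hq h1 h2, h3]

/-! ### The approximation -/

theorem one_add_I_sq : ‖(1 + Complex.I : ℂ)‖ ≥ 1 := by
  have h : (1 + Complex.I : ℂ).re ≤ ‖(1 + Complex.I : ℂ)‖ := Complex.re_le_norm _
  simpa using h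

theorem tendsto_inv {N : ℕ → ℕ} (hN : Tendsto N atTop atTop) :
    Tendsto (fun n => 1 / (N n : ℝ)) atTop (𝓝 0) :=
  tendsto_one_div_atTop_nhds_zero_nat.comp hN

/-- The boundary of a realization is close to the boundary of the rotated shape. -/
theorem near_rl {P : Sh2} (hP : P.Ok) {ε : ℝ} (hε : 0 < ε) : ∃ N₀ : ℕ, ∀ N : ℕ, N₀ ≤ N → 0 < N →
    ∀ (s : ℤ × ℤ) (D : ZDom), Rl P N s D → ∃ σ : ℕ → ℝ, Monotone σ ∧ σ 0 = 0 ∧ σ D.k = Real.pi ∧
      σ D.n = 2 * Real.pi ∧ ∀ i < D.n, ∀ t ∈ Icc (σ i) (σ (i + 1)),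
        dist (((1 / (N : ℝ) : ℝ) : ℂ) * pt (D.p i - D.f))
          (PF6 P.q 1 (sg P.k P.m t) / (1 + Complex.I)) < ε := by
  obtain ⟨τ, hτ1, hτ2, hτ3, hτ4, hτ5⟩ := exists_inv hP.k_pos hP.k_lt
  have hcont : ContinuousOn (PF6 P.q 1) (Icc (0 : ℝ) (2 * P.m + 3)) := continuous_PF6.continuousOn
  have huc := isCompact_Icc.uniformContinuousOn_of_continuous hcont
  rw [Metric.uniformContinuousOn_iff] at huc
  obtain ⟨η, hη, huc⟩ := huc (ε / 2) (by linarith)
  obtain ⟨N1, hN1⟩ := exists_nat_gt (5 / η)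
  obtain ⟨N2, hN2⟩ := exists_nat_gt (22 / ε)
  refine ⟨max N1 (max N2 4), fun N hN hN0 s D hD => ?_⟩
  have hNr : (0 : ℝ) < N := by exact_mod_cast hN0
  have hNη : 5 / η < N := hN1.trans_le (by exact_mod_cast (le_trans (le_max_left _ _) hN))
  have hNε : 22 / ε < N := hN2.trans_le (by
    exact_mod_cast (le_trans (le_trans (le_max_left _ _) (le_max_right _ _)) hN))
  have hN2' : (4 : ℝ) ≤ N := by
    exact_mod_cast (le_trans (le_trans (le_max_right _ _) (le_max_right _ _)) hN)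
  obtain ⟨g, g1, g2, g3, g4, g5, g6⟩ := hD.par
  have hk1 : (P.k : ℝ) ≤ P.m := by exact_mod_cast hP.k_lt.le
  set y : ℕ → ℝ := fun i => ((g i : ℝ) + P.k * N + N / 2) / N with hy
  have hym : Monotone y := by
    intro a b hab
    have h1 : (g a : ℝ) ≤ g b := by exact_mod_cast g1 hab
    simp only [hy]
    gcongr
  have hy0 : y 0 = P.k + 1 / 2 := by
    simp only [hy, g2]
    field_simp
    push_cast
    ring
  have hyk : y D.k = P.m + 1 / 2 := by
    simp only [hy, g3]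
    rw [Nat.cast_mul, Nat.cast_sub hP.k_lt.le]
    field_simp
    ring
  have hyn : y D.n = P.k + 1 / 2 + P.m := by
    simp only [hy, g4]
    rw [Nat.cast_mul]
    field_simp
    ring
  refine ⟨fun i => τ (y i), fun a b hab => hτ1 (hym hab), ?_, ?_, ?_, ?_⟩
  · simp only [hy0, hτ3]
  · simp only [hyk, hτ4]
  · simp only [hyn, hτ5]
  intro i hi t ht
  have hsm := sg_strictMono hP.k_pos hP.k_lt
  have ht1 : y i ≤ sg P.k P.m t := by
    have := hsm.monotone ht.1
    simp only [hτ2] at this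
    exact this
  have ht2 : sg P.k P.m t ≤ y (i + 1) := by
    have := hsm.monotone ht.2
    simp only [hτ2] at this
    exact this
  have hstep : y (i + 1) ≤ y i + 4 / N := by
    simp only [hy]
    rw [← add_div]
    have h1 : (g (i + 1) : ℝ) ≤ g i + 4 := by exact_mod_cast g5 i
    exact div_le_div_of_nonneg_right (by linarith) hNr.le
  have h2N : 4 / (N : ℝ) ≤ 1 := by
    rw [div_le_one hNr]
    exact hN2'
  have hyi0 : (0 : ℝ) ≤ y i := by
    simp only [hy]
    positivity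
  have hyin : y i ≤ 2 * P.m + 1 := by
    have h1 := hym hi.le
    rw [hyn] at h1
    linarith
  have hd : dist (PF6 P.q 1 (y i)) (PF6 P.q 1 (sg P.k P.m t)) < ε / 2 := by
    refine huc _ ⟨hyi0, by linarith⟩ _ ⟨by linarith, by linarith⟩ ?_
    rw [Real.dist_eq, abs_sub_comm, abs_of_nonneg (by linarith)]
    have h3 : 4 / (N : ℝ) < η := by
      rw [div_lt_iff₀ hNr]
      rw [div_lt_iff₀ hη] at hNη
      nlinarith
    linarith
  have hd2 := g6 i hi
  have hs : pt s = (1 + Complex.I) * pt D.f + Complex.I := by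
    rw [← hD.face]
    apply Complex.ext <;> simp [pt, rf]
    ring
  have key : ((1 / (N : ℝ) : ℝ) : ℂ) * pt (D.p i - D.f) - PF6 P.q 1 (sg P.k P.m t) /
      (1 + Complex.I) = (((1 / (N : ℝ) : ℝ) : ℂ) * (pt (ro (D.p i)) -
        (pt s + N * PF6 P.q 1 (y i)) + Complex.I) +
          (PF6 P.q 1 (y i) - PF6 P.q 1 (sg P.k P.m t))) / (1 + Complex.I) := by
    rw [pt_ro', pt_sub, hs]
    have hNc : (N : ℂ) ≠ 0 := by exact_mod_cast hNr.ne'
    have h1I := one_add_I_ne
    field_simp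
    push_cast
    field_simp
    ring
  rw [dist_eq_norm, key, norm_div]
  have hn1 : ‖((1 / (N : ℝ) : ℝ) : ℂ) * (pt (ro (D.p i)) -
        (pt s + N * PF6 P.q 1 (y i)) + Complex.I)‖ < ε / 2 := by
    rw [norm_mul, Complex.norm_real, Real.norm_eq_abs, abs_of_pos (by positivity)]
    have h3 : ‖pt (ro (D.p i)) - (pt s + N * PF6 P.q 1 (y i)) + Complex.I‖ ≤ 11 := by
      refine (norm_add_le _ _).trans ?_
      rw [Complex.norm_I, ← dist_eq_norm]
      linarith
    have h4 : 1 / (N : ℝ) * 11 < ε / 2 := by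
      rw [div_lt_iff₀ hε] at hNε
      rw [one_div, inv_mul_lt_iff₀ hNr]
      nlinarith
    refine lt_of_le_of_lt ?_ h4
    gcongr
  rw [dist_eq_norm] at hd
  have hnum : ‖((1 / (N : ℝ) : ℝ) : ℂ) * (pt (ro (D.p i)) -
        (pt s + N * PF6 P.q 1 (y i)) + Complex.I) +
          (PF6 P.q 1 (y i) - PF6 P.q 1 (sg P.k P.m t))‖ < ε := by
    refine lt_of_le_of_lt (norm_add_le _ _) ?_
    linarith
  calc _ ≤ ‖((1 / (N : ℝ) : ℝ) : ℂ) * (pt (ro (D.p i)) -
        (pt s + N * PF6 P.q 1 (y i)) + Complex.I) +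
          (PF6 P.q 1 (y i) - PF6 P.q 1 (sg P.k P.m t))‖ :=
        div_le_self (norm_nonneg _) one_add_I_sq
    _ < ε := hnum

/-- The translated and rotated domains. -/
noncomputable def ZDom.mv (D : ZDom) (j : ℕ) : ZDom :=
  ⟨D.n, fun i => R^[j] (D.p i + -D.f), D.k, (D.S.image (· + -D.f)).image Rs^[j],
    Rs^[j] (D.f + -D.f)⟩

theorem ZDom.pr_mv {q : ℝ} (hq : 0 < q) {D : ZDom} (hp : IsPolygon D.p) (hE : Encloses D.p D.S)
    (j : ℕ) : (D.mv j).pr q = D.pr q := by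
  unfold ZDom.pr ZDom.mv
  simp only
  rw [(iter_all hq (isPolygon_tp hp _) (encloses_tp hE _) j).2.2, PL_tr hq hp hE]

theorem I_pow_ne (j : ℕ) : Complex.I ^ j ≠ 0 := pow_ne_zero _ Complex.I_ne_zero

theorem approx_rl {P : Sh2} (hP : P.Ok) {Φ : (ℝ × ℝ) ≃ₜ (ℝ × ℝ)}
    (h1 : ∀ t, toC (Φ (circ t)) = PF6 P.q 1 (sg P.k P.m t) / (1 + Complex.I)) {N : ℕ → ℕ}
    {s : ℕ → ℤ × ℤ} {E : ℕ → ZDom} (hN : Tendsto N atTop atTop) (h0 : ∀ n, 0 < N n)
    (hE : ∀ n, Rl P (N n) (s n) (E n)) (j : ℕ) :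
    Approx (Φ.trans (mulH (Complex.I ^ j) (I_pow_ne j))) (fun n => 1 / (N n : ℝ))
      (fun n => ((E n).mv j).n) (fun n => ((E n).mv j).k) (fun n => ((E n).mv j).p)
      (fun n => ((E n).mv j).S) := by
  refine ⟨fun n => ?_, tendsto_inv hN, fun ε hε => ?_⟩
  · have h2 : (0 : ℝ) < N n := by exact_mod_cast h0 n
    have h3 := iter_all (q := 1) (k := 0) (f := (0, 0)) one_pos (isPolygon_tp (hE n).poly (-(E n).f))
      (encloses_tp (hE n).encl (-(E n).f)) j
    exact ⟨by positivity, (hE n).k_pos, (hE n).k_lt, h3.1, h3.2.1⟩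
  · obtain ⟨N₀, h2⟩ := near_rl hP hε
    filter_upwards [hN.eventually_ge_atTop N₀] with n hn
    obtain ⟨σ, s1, s2, s3, s4, s5⟩ := h2 (N n) hn (h0 n) (s n) (E n) (hE n)
    refine ⟨σ, s1, s2, s3, s4, fun i hi t ht => ?_⟩
    have h3 := s5 i hi t ht
    have e1 : ((1 / (N n : ℝ) : ℝ) : ℂ) * pt (((E n).mv j).p i) =
        ((1 / (N n : ℝ) : ℝ) : ℂ) * pt ((E n).p i - (E n).f) * Complex.I ^ j := by
      show ((1 / (N n : ℝ) : ℝ) : ℂ) * pt (R^[j] ((E n).p i + -(E n).f)) = _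
      rw [pt_Rj, ← sub_eq_add_neg, mul_assoc]
    rw [e1, Homeomorph.trans_apply, toC_mulH, h1, dist_eq_norm, ← sub_mul, norm_mul, norm_pow,
      Complex.norm_I, one_pow, mul_one, ← dist_eq_norm]
    exact h3

/-- The realizations are in the class. -/
theorem stair_rl {P : Sh2} {N : ℕ → ℕ} {s : ℕ → ℤ × ℤ} {E : ℕ → ZDom} (h0 : ∀ n, 0 < N n)
    (hE : ∀ n, Rl P (N n) (s n) (E n)) {j : ℕ} {r : Fin 4} (hr : P.q 1 = P.q 0 + dir r)
    (hj : (· + 1)^[j] r = 0) (Φ : (ℝ × ℝ) ≃ₜ (ℝ × ℝ)) :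
    Stair 3 Φ (fun n => 1 / (N n : ℝ))
      (fun n => ((E n).mv j).n) (fun n => ((E n).mv j).k) (fun n => ((E n).mv j).p)
      (fun n => ((E n).mv j).S) := by
  refine ⟨1 / 4, by norm_num, Eventually.of_forall fun n m hm => ?_⟩
  have h1 : (0 : ℝ) < N n := by exact_mod_cast h0 n
  have h2 : 4 * m ≤ N n := by
    have h3 : (m : ℝ) * (1 / N n) * N n ≤ 1 / 4 * N n := by
      exact mul_le_mul_of_nonneg_right hm h1.le
    rw [mul_assoc, one_div_mul_cancel h1.ne', mul_one] at h3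
    have h4 : (4 : ℝ) * m ≤ N n := by linarith
    exact_mod_cast h4
  obtain ⟨z1, z2⟩ := (hE n).zig r hr m h2
  have hR : ∀ (j : ℕ) (u v : ℤ × ℤ), R^[j] (u + v) = R^[j] u + R^[j] v := by
    intro j u v
    induction j with
    | zero => rfl
    | succ j ih => rw [Function.iterate_succ_apply', ih, R_add, Function.iterate_succ_apply',
        Function.iterate_succ_apply']
  have hd : ∀ (j : ℕ) (d : Fin 4), R^[j] (dir d) = dir ((· + 1)^[j] d) := by
    intro j d
    induction j with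
    | zero => rfl
    | succ j ih => rw [Function.iterate_succ_apply', ih, R_dir, Function.iterate_succ_apply']
  have hc : ∀ (j : ℕ) (a b : Fin 4), (· + 1)^[j] (a + b) = (· + 1)^[j] a + b := by
    intro j a b
    induction j with
    | zero => rfl
    | succ j ih => rw [Function.iterate_succ_apply', ih, Function.iterate_succ_apply',
        add_right_comm]
  have e1 : R^[j] (if Even m then dir (r + 3) else dir (r + 3 + 1)) =
      if Even m then dir 3 else dir (3 + 1) := by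
    have e2 : (· + 1)^[j] (r + 3) = (3 : Fin 4) := by
      rw [hc, hj, zero_add]
    have e3 : (· + 1)^[j] (r + 3 + 1) = (3 + 1 : Fin 4) := by
      rw [hc, e2]
    split_ifs
    · rw [hd, e2]
    · rw [hd, e3]
  constructor
  · show R^[j] ((E n).p (((E n).k : ZMod (E n).n) + m + 1) + -(E n).f) =
      R^[j] ((E n).p (((E n).k : ZMod (E n).n) + m) + -(E n).f) + _
    rw [z1, add_right_comm, hR, e1]
  · show R^[j] ((E n).p (((E n).k : ZMod (E n).n) - m) + -(E n).f) =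
      R^[j] ((E n).p (((E n).k : ZMod (E n).n) - m - 1) + -(E n).f) + _
    rw [z2, add_right_comm, hR, e1]

/-! ### The limit -/

theorem pz_arg (z : ℂ) : z = (‖z‖ : ℂ) * pz 1 z.arg := by
  unfold pz
  rw [Complex.ofReal_one, one_mul]
  exact (Complex.norm_mul_exp_arg_mul_I z).symm

/-- **The probabilities of `L` in the enlargements of the shapes converge.** -/
theorem shLim_rl {q : ℝ} (hq : 0 < q) {h : ℂ → ℝ} (hF : PasF h) (hlim : PasLim (Stair 3) q h) :
    ShLim Rl q h := by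
  intro P hP x ⟨φ, z, hφ, hz, hφz, hx⟩ N s E hN _ _ hRe
  obtain ⟨Φ, h1, h2⟩ := exists_Phi hP
  obtain ⟨r, hr⟩ := hP.poly.2.2 0
  rw [zero_add] at hr
  obtain ⟨j, hj⟩ : ∃ j : ℕ, (· + 1)^[j] r = 0 := by
    fin_cases r
    · exact ⟨0, rfl⟩
    · exact ⟨3, rfl⟩
    · exact ⟨2, rfl⟩
    · exact ⟨1, rfl⟩
  have hex : ∀ᶠ n in atTop, Rl P (N n) (s n) (E n) ∧ 0 < N n :=
    hRe.and (hN.eventually_gt_atTop 0)
  obtain ⟨n₀, hn₀⟩ := eventually_atTop.1 hex
  rw [← tendsto_add_atTop_iff_nat n₀]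
  have hN' : Tendsto (fun n => N (n + n₀)) atTop atTop := hN.comp (tendsto_add_atTop_nat n₀)
  have hE' : ∀ n, Rl P (N (n + n₀)) (s (n + n₀)) (E (n + n₀)) := fun n => (hn₀ _ (by omega)).1
  have h0' : ∀ n, 0 < N (n + n₀) := fun n => (hn₀ _ (by omega)).2
  have ha := approx_rl hP h1 hN' h0' hE' j
  have hs := stair_rl (E := fun n => E (n + n₀)) h0' hE' hr hj
    (Φ.trans (mulH (Complex.I ^ j) (I_pow_ne j)))
  have hu := uniformizer_mul (isUniformizer hφ h1 h2) (Complex.I ^ j) (I_pow_ne j)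
  have h3 := hlim _ _ _ _ _ _ _ hu ha hs z hz (fun n => ((E (n + n₀)).mv j).f) (by
    rw [hφz, zero_div, zero_mul]
    have h4 : ∀ n, ((E (n + n₀)).mv j).f = Rs^[j] 0 := by
      intro n
      show Rs^[j] ((E (n + n₀)).f + -(E (n + n₀)).f) = _
      rw [add_neg_cancel]
    simp only [h4]
    have h5 := (Complex.continuous_ofReal.tendsto 0).comp (tendsto_inv hN')
    have h6 := h5.mul_const (pt (Rs^[j] 0))
    simpa using h6)
  have h4 : ∀ n, PL q ((E (n + n₀)).mv j).p ((E (n + n₀)).mv j).k ((E (n + n₀)).mv j).S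
      ((E (n + n₀)).mv j).f = (E (n + n₀)).pr q := fun n =>
    ZDom.pr_mv hq (hE' n).poly (hE' n).encl j
  simp only [h4] at h3
  have h5 : h z = h (pz 1 x) := by
    have h6 := pz_arg z
    have hz0 : z ≠ 0 := by
      rintro rfl
      simp at hz
    have hn : 0 < ‖z‖ := norm_pos_iff.2 hz0
    have h7 : 0 < (pz 1 x).im := by
      rw [h6, hx] at hz
      simp only [Complex.mul_im, Complex.ofReal_re, Complex.ofReal_im, zero_mul, add_zero] at hz
      exact (mul_pos_iff_of_pos_left hn).1 hz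
    rw [h6, hx]
    exact hF.scale ‖z‖ (pz 1 x) hn h7
  rwa [h5] at h3

end Vale.Agent.P167.H212.L
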