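import Vale.Agent.P167.H212.L.Defs
import Vale.Agent.P167.H212.L.Low

/-!
# P167, Stage II, TOP, file 3: `GeoL` and `ShLim` give the input of the END
-/

set_option autoImplicit false
set_option linter.unusedVariables false

namespace Vale.Agent.P167.H212.L

open MeasureTheory ProbabilityTheory Filter Topology Set
open Vale.Agent.P153.M1 (Expl sysX W_cont)
open Vale.Agent.P153.R2
open Vale.Agent.P153.R2.C1
open Vale.Agent.P167.QE
open Vale.Agent.P167.H411 (Expn Set6 exn DC DCs Qc xc_Qc good_ev DCs_bdd fjr_mono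
  I_rado6 AsymB cyl mem_cyl cyl_sub)
open Vale.Agent.P167.E6 Vale.Agent.P167.E2
open Vale.Agent.P167.H192 (cfg ro rf)
open Vale.Agent.P167.H397.Q (LZ PL PasF PasLim Mono)
open Vale.Agent.P167.H947 (surv flow)

/-- A continuous homogeneous function: the values at points with close arguments. -/
theorem pasF_unif {h : ℂ → ℝ} (H : PasF h) {c : ℝ} (hc : 0 < c) {ε : ℝ} (hε : 0 < ε) :
    ∃ η : ℝ, 0 < η ∧ ∀ (z : ℂ) (x : ℝ), 0 < z.im → z.arg ∈ Icc c (Real.pi - c) →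
      |x - z.arg| ≤ η → |h (pz 1 x) - h z| ≤ ε := by
  -- the function of the angle is uniformly continuous on a compact interval
  have hg : ContinuousOn (fun x : ℝ => h (pz 1 x)) (Icc (c / 2) (Real.pi - c / 2)) := by
    refine H.cont.comp (continuous_pz 1).continuousOn fun x hx => ?_
    exact pz_im_pos ⟨lt_of_lt_of_le (by positivity) hx.1, lt_of_le_of_lt hx.2 (by linarith)⟩
  have hu := isCompact_Icc.uniformContinuousOn_of_continuous hg
  rw [Metric.uniformContinuousOn_iff] at hu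
  obtain ⟨δ, hδ, hd⟩ := hu ε hε
  refine ⟨min (δ / 2) (c / 2), by positivity, fun z x hz hza hx => ?_⟩
  obtain ⟨h1, h2⟩ := abs_le.1 hx
  have h3 : min (δ / 2) (c / 2) ≤ c / 2 := min_le_right _ _
  have h4 : min (δ / 2) (c / 2) ≤ δ / 2 := min_le_left _ _
  have e : h z = h (pz 1 z.arg) := by
    have hz0 : z ≠ 0 := by
      rintro rfl
      simp at hz
    have e : z = ((‖z‖ : ℝ) : ℂ) * pz 1 z.arg := by
      rw [pz, Complex.ofReal_one, one_mul, Complex.norm_mul_exp_arg_mul_I]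
    conv_lhs => rw [e]
    exact H.scale _ _ (norm_pos_iff.2 hz0) (pz_im_pos (arg_mem hz))
  rw [e]
  have h5 := hd x ⟨by linarith [hza.1], by linarith [hza.2]⟩ z.arg
    ⟨by linarith [hza.1], by linarith [hza.2]⟩ (by rw [Real.dist_eq]; linarith)
  rw [Real.dist_eq] at h5
  exact h5.le

/-- `HFun` from the output of 397. -/
theorem hFun_of {h : ℂ → ℝ} (H : PasF h) (hm : Mono h) : HFun h where
  nonneg := H.nonneg
  le_one := H.le_one
  scale := H.scale
  mono := hm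
  nconst := H.nconst

section

variable {A B ι : Type*} {X : ℕ → Expl A B} {w : ℕ → A → ℝ}

open Classical in
/-- The value of the limit for a shape. -/
noncomputable def hval (h : ℂ → ℝ) (Ang : ι → ℝ → Prop) (P : ι) : ℝ :=
  if hx : ∃ x, Ang P x then h (pz 1 hx.choose) else 0

/-- **Pointwise closeness from the comparison with finitely many shapes.** -/
theorem closePz_of (hX : AsymB X) (hw : ∀ n, ∀ a ∈ (X n).C, 0 < w n a) {h : ℂ → ℝ} (H : PasF h)
    (Ang : ι → ℝ → Prop)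
    (hgeo : ∀ T R : ℝ, 0 ≤ T → 0 < R → ∃ b₁ : ℝ, ∀ b : ℝ, b₁ ≤ b → ∀ θ ∈ Ioo 0 Real.pi,
      ∀ ε : ℝ, 0 < ε → ∃ (Sh : Set ι) (V : ℕ → ι → ℝ), Sh.Finite ∧
        (∀ P ∈ Sh, ∀ x, Ang P x → Tendsto (fun n => V n P) atTop (𝓝 (h (pz 1 x)))) ∧
        ∀ᶠ n in atTop, ∃ φ : A → ℝ, (∀ a ∈ (X n).C, 0 ≤ φ a ∧ φ a ≤ 1) ∧
          ∀ κ : A → ℕ, BefIx (X n) T R κ →
          ExW (X n).C (w n) ({a | ¬ ∃ P ∈ Sh, ∃ P' ∈ Sh,
            V n P - ε ≤ cexW (X n) (w n) φ a (κ a) ∧ cexW (X n) (w n) φ a (κ a) ≤ V n P' + ε ∧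
            ∀ Q : ι, (Q = P ∨ Q = P') → ∃ x : ℝ, Ang Q x ∧
              |x - (flow ((X n).W a) ((X n).c a (κ a)) (pz b θ) -
                ((X n).W a ((X n).c a (κ a)) : ℝ)).arg| ≤ ε}.indicator 1) ≤ ε) :
    ClosePz X w h := by
  classical
  intro T R hT hR
  obtain ⟨C, hC0, hCb⟩ := hX.ok.path_bd T R
  obtain ⟨b₂, hb₂, hlow⟩ := arg_low hC0.le hC0.le
  obtain ⟨b₁, hb₁⟩ := hgeo T R hT hR
  refine ⟨max b₁ b₂, fun b hb θ hθ ε hε => ?_⟩
  obtain ⟨c, hc, hlow⟩ := hlow b ((le_max_right _ _).trans hb) θ hθ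
  obtain ⟨η, hη, hun⟩ := pasF_unif H hc (ε := ε / 3) (by positivity)
  obtain ⟨Sh, V, hfin, hlim, hev⟩ :=
    hb₁ b ((le_max_left _ _).trans hb) θ hθ (min η (ε / 3)) (by positivity)
  have hval_eq : ∀ P ∈ Sh, ∀ x, Ang P x → h (pz 1 x) = hval h Ang P := by
    intro P hP x hx
    have hx' : ∃ x, Ang P x := ⟨x, hx⟩
    rw [hval, dif_pos hx']
    exact tendsto_nhds_unique (hlim P hP x hx) (hlim P hP hx'.choose hx'.choose_spec)
  have hl : ∀ᶠ n in atTop, ∀ P ∈ Sh, (∃ x, Ang P x) → |V n P - hval h Ang P| ≤ ε / 3 := by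
    have h1 : ∀ᶠ n in atTop, ∀ P ∈ hfin.toFinset, (∃ x, Ang P x) →
        |V n P - hval h Ang P| ≤ ε / 3 := by
      refine (Finset.eventually_all _).2 fun P hP => ?_
      have hP' := hfin.mem_toFinset.1 hP
      by_cases hx : ∃ x, Ang P x
      · have h2 := hlim P hP' hx.choose hx.choose_spec
        rw [Metric.tendsto_atTop] at h2
        obtain ⟨M, hM⟩ := h2 (ε / 3) (by positivity)
        filter_upwards [eventually_ge_atTop M] with n hn _
        have h3 := hM n hn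
        rw [Real.dist_eq] at h3
        rw [hval, dif_pos hx]
        exact h3.le
      · exact Eventually.of_forall fun n h => absurd h hx
    filter_upwards [h1] with n hn P hP
    exact hn P (hfin.mem_toFinset.2 hP)
  obtain ⟨φ, hφ⟩ := hev.choice
  refine ⟨φ, ?_⟩
  filter_upwards [hφ, hl] with n hn hln
  refine ⟨hn.1, fun κ hκ => ?_⟩
  have hwf := hX.wf n
  refine (exW_mono hwf.fin (hw n) fun a ha => ?_).trans
    ((hn.2 κ hκ).trans ((min_le_right _ _).trans (by linarith)))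
  -- the exploration before the exit
  obtain ⟨k1, k2⟩ := hκ.2 a ha
  have hbef : (sysX X).Bef T R n ⟨a, ha⟩ (κ a) := by
    intro j hj
    obtain ⟨k3, k4⟩ := k2 j hj
    have hjK : j ≤ (X n).K a := by omega
    have e4 : (sysX X).τ n j ⟨a, ha⟩ = (X n).c a j := Expl.tt_le hjK
    have e5 : (sysX X).V n j ⟨a, ha⟩ = (X n).V a j := Expl.W_tt_le hjK
    rw [e4, e5]
    exact ⟨k3, k4⟩
  obtain ⟨hp, hτ⟩ := hCb n ⟨a, ha⟩ (κ a) hbef
  have e1 : (sysX X).τ n (κ a) ⟨a, ha⟩ = (X n).c a (κ a) := Expl.tt_le k1.le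
  rw [e1] at hτ hp
  have hτ0 : 0 ≤ (X n).c a (κ a) := by
    have := (hX.wf n).tt_nonneg ha (κ a)
    rwa [Expl.tt_le k1.le] at this
  obtain ⟨him, harg⟩ := hlow ((X n).W a) ((X n).c a (κ a)) hτ0 hτ
    ((W_cont (X := X) n ⟨a, ha⟩).mono Icc_subset_Ici_self) (fun s hs => hp s hs.1 hs.2)
  by_cases h5 : ∃ P ∈ Sh, ∃ P' ∈ Sh,
      V n P - min η (ε / 3) ≤ cexW (X n) (w n) (φ n) a (κ a) ∧
      cexW (X n) (w n) (φ n) a (κ a) ≤ V n P' + min η (ε / 3) ∧
      ∀ Q : ι, (Q = P ∨ Q = P') → ∃ x : ℝ, Ang Q x ∧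
        |x - (flow ((X n).W a) ((X n).c a (κ a)) (pz b θ) -
          ((X n).W a ((X n).c a (κ a)) : ℝ)).arg| ≤ min η (ε / 3)
  · obtain ⟨P, hP, P', hP', h6, h7, h8⟩ := h5
    have key : ∀ Q ∈ Sh, (Q = P ∨ Q = P') → |V n Q - h (flow ((X n).W a) ((X n).c a (κ a))
        (pz b θ) - ((X n).W a ((X n).c a (κ a)) : ℝ))| ≤ 2 * (ε / 3) := by
      intro Q hQ hQP
      obtain ⟨x, hx, hxa⟩ := h8 Q hQP
      have h9 := hun _ x him harg (hxa.trans (min_le_left _ _))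
      rw [hval_eq Q hQ x hx] at h9
      have h10 := hln Q hQ ⟨x, hx⟩
      have h11 := abs_add_le (V n Q - hval h Ang Q) (hval h Ang Q -
        h (flow ((X n).W a) ((X n).c a (κ a)) (pz b θ) - ((X n).W a ((X n).c a (κ a)) : ℝ)))
      rw [sub_add_sub_cancel] at h11
      linarith
    have a1 := abs_le.1 (key P hP (Or.inl rfl))
    have a2 := abs_le.1 (key P' hP' (Or.inr rfl))
    have hmin : min η (ε / 3) ≤ ε / 3 := min_le_right _ _
    have hle : ¬ ε < |cexW (X n) (w n) (φ n) a (κ a) -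
        h (flow ((X n).W a) ((X n).c a (κ a)) (pz b θ) -
          ((X n).W a ((X n).c a (κ a)) : ℝ))| := by
      rw [not_lt, abs_le]
      constructor
      · linarith [a1.1]
      · linarith [a2.2]
    rw [Set.indicator_of_notMem (by rw [mem_ofPred_eq]; exact hle)]
    exact Set.indicator_nonneg (fun _ _ => zero_le_one) _
  · rw [Set.indicator_of_mem (a := a) (s := {a | ¬ ∃ P ∈ Sh, ∃ P' ∈ Sh,
            V n P - min η (ε / 3) ≤ cexW (X n) (w n) (φ n) a (κ a) ∧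
              cexW (X n) (w n) (φ n) a (κ a) ≤ V n P' + min η (ε / 3) ∧
            ∀ Q : ι, (Q = P ∨ Q = P') → ∃ x : ℝ, Ang Q x ∧
              |x - (flow ((X n).W a) ((X n).c a (κ a)) (pz b θ) -
                ((X n).W a ((X n).c a (κ a)) : ℝ)).arg| ≤ min η (ε / 3)}) h5]
    exact Set.indicator_le_self' (fun _ _ => zero_le_one) _

theorem closePz_unshift {h : ℂ → ℝ} (n₀ : ℕ)
    (hC : ClosePz (fun n => X (n + n₀)) (fun n => w (n + n₀)) h) : ClosePz X w h := by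
  intro T R hT hR
  obtain ⟨b₁, hb⟩ := hC T R hT hR
  refine ⟨b₁, fun b hb₁ θ hθ ε hε => ?_⟩
  obtain ⟨φ, hφ⟩ := hb b hb₁ θ hθ ε hε
  refine ⟨fun n => φ (n - n₀), ?_⟩
  obtain ⟨M, hM⟩ := eventually_atTop.1 hφ
  refine eventually_atTop.2 ⟨M + n₀, fun n hn => ?_⟩
  obtain ⟨m, rfl⟩ : ∃ m, n = m + n₀ := ⟨n - n₀, by omega⟩
  have h1 := hM m (by omega)
  simp only [Nat.add_sub_cancel]
  exact h1

end

/-- **TOP of Stage II.** -/
theorem i_pzL_of {Re : Sh2 → ℕ → ℤ × ℤ → ZDom → Prop} {q : ℝ} (hq : 0 < q) {h : ℂ → ℝ}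
    (H : PasF h) (hsh : ShLim Re q h) (hG : GeoL Re q) : I_pzL (wq q) h := by
  intro Φ ψ δ N k p S ψn H6
  obtain ⟨n₀, hn₀⟩ := eventually_atTop.1 (good_ev H6.appr)
  have hD := H6.dcs Vale.Agent.P153.R2.R1.i_uinj hn₀
  refine closePz_unshift n₀ (closePz_of hD.asymB (fun n A _ => wq_pos hq _ _ _ _ A) H Sh2.Ang ?_)
  intro T R hT hR
  obtain ⟨b₁, hb₁⟩ := hG Φ ψ δ N k p S ψn H6 T R hT hR
  refine ⟨b₁, fun b hb θ hθ ε hε => ?_⟩
  obtain ⟨Sh, N', s, E, hfin, hok, hN', h4, hs, hre, hgeo⟩ := hb₁ b hb θ hθ ε hε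
  have ht := tendsto_add_atTop_nat n₀
  refine ⟨Sh, fun n P => (E (n + n₀) P).pr q, hfin, fun P hP x hx => ?_, ?_⟩
  · exact hsh P (hok P hP) x hx (fun n => N' (n + n₀)) (fun n => s (n + n₀))
      (fun n => E (n + n₀) P) (hN'.comp ht) (fun n => h4 _) (fun n => hs _)
      (by filter_upwards [ht.eventually hre] with n hn using hn P hP)
  · filter_upwards [ht.eventually hgeo] with n hn
    obtain ⟨f, hf⟩ := hn
    refine ⟨fun A => (LZ (ro (p (n + n₀) (-1))) (rf f)).indicator 1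
      (cfg (Final.wiredOpen (p (n + n₀)) (k (n + n₀)) A)), fun A _ => ?_, hf⟩
    simp only
    by_cases hA : cfg (Final.wiredOpen (p (n + n₀)) (k (n + n₀)) A) ∈
      LZ (ro (p (n + n₀) (-1))) (rf f)
    · rw [Set.indicator_of_mem hA]
      simp
    · rw [Set.indicator_of_notMem hA]
      simp

/-- **The question from the inputs of Stage II.** -/
theorem question_geoL {Re : Sh2 → ℕ → ℤ × ℤ → ZDom → Prop} {q : ℝ} (h0 : 0 < q) (h4 : q < 4)
    {h : ℂ → ℝ} (H : PasF h) (hm : Mono h) (hsh : ShLim Re q h) (hG : GeoL Re q)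
    (hone : I_one (Final.kappa q) (wq q)) (hcross : I_crossW (wq q))
    (hfin : I_finW (wq q)) (hnf : I_nfW (wq q)) : Final.Question q :=
  question_two h0 h4 (hFun_of H hm) (i_pzL_of h0 H hsh hG) hone hcross hfin hnf

end Vale.Agent.P167.H212.L
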