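import Vale.Agent.P167.H397.Q.S2Defs
import Vale.Agent.P167.H685.Q.RecT

/-!
# P167, Stage II: convergence for the shapes, file 2: the probability of `L` is invariant under
translations

`PL_tr : PL q (p - w) k (S - w) (f - w) = PL q p k S f`.
-/

set_option autoImplicit false

namespace Vale.Agent.P167.H212.L

open Relation Vale.Agent.P167.FK Vale.Agent.P167.H192 Vale.Agent.P167.H718 Vale.Agent.P167.H397.Q
open Vale.Agent.P145.FB (PStep)
open Vale.Agent.P167.E6 (wiredOpen edges Encloses IsPolygon dir face)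

/-! ### The event -/

/-- Translation of the plane. -/
def tp (c : ℤ × ℤ) (v : ℤ × ℤ) : ℤ × ℤ := (v.1 + c.1, v.2 + c.2)

/-- The steps are translated. -/
theorem pStep_tp {F F' : Set (ℤ × ℤ)} {c : ℤ × ℤ} (h : ∀ v, v ∈ F' ↔ tp c v ∈ F) {u v : ℤ × ℤ} :
    PStep F' u v ↔ PStep F (tp c u) (tp c v) := by
  unfold PStep
  have e : (min (tp c u).1 (tp c v).1, min (tp c u).2 (tp c v).2) =
      tp c (min u.1 v.1, min u.2 v.2) := by
    unfold tp
    ext <;> simp only <;> omega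
  rw [e, ← h]
  simp only [tp]
  constructor
  · rintro ⟨h1, h2, h3⟩
    exact ⟨by omega, by omega, h3⟩
  · rintro ⟨h1, h2, h3⟩
    exact ⟨by omega, by omega, h3⟩

theorem tp_neg (c v : ℤ × ℤ) : tp (-c) (tp c v) = v := by
  unfold tp
  ext <;> simp

theorem tp_neg' (c v : ℤ × ℤ) : tp c (tp (-c) v) = v := by
  unfold tp
  ext <;> simp

theorem rtg_tp {F F' : Set (ℤ × ℤ)} {c : ℤ × ℤ} (h : ∀ v, v ∈ F' ↔ tp c v ∈ F) {u v : ℤ × ℤ} :
    ReflTransGen (PStep F') u v ↔ ReflTransGen (PStep F) (tp c u) (tp c v) := by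
  constructor
  · intro h1
    exact h1.lift (tp c) fun a b hab => (pStep_tp h).1 hab
  · intro h1
    have h2 := h1.lift (tp (-c)) (p := PStep F') fun a b hab => (pStep_tp h).2 (by
      rw [tp_neg', tp_neg']
      exact hab)
    simp only [Function.onFun, tp_neg] at h2
    exact h2

theorem pa_tp {c : ℤ × ℤ} (hc : Even (c.1 + c.2)) (v : ℤ × ℤ) : pa (tp c v) = tp c (pa v) := by
  have h : Even ((tp c v).1 + (tp c v).2) ↔ Even (v.1 + v.2) := by
    simp only [tp, Int.even_iff] at hc ⊢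
    omega
  unfold pa
  by_cases h1 : Even (v.1 + v.2)
  · rw [if_pos h1, if_pos (h.2 h1)]
  · rw [if_neg h1, if_neg fun h2 => h1 (h.1 h2)]
    simp only [tp]
    refine Prod.ext rfl ?_
    simp only
    omega

theorem blk_tp {c : ℤ × ℤ} (hc : Even (c.1 + c.2)) (ω : Cfg) (w v : ℤ × ℤ) :
    v ∈ blk (ω ∘ tp c) w ↔ tp c v ∈ blk ω (tp c w) := by
  unfold blk
  simp only [Set.mem_ofPred_eq, Function.comp_apply]
  rw [pa_tp hc]
  unfold PC
  rw [rtg_tp (F := op ω) (F' := op (ω ∘ tp c)) (c := c) fun v => Iff.rfl]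

/-- **The event is translated.** -/
theorem LZ_tp {c : ℤ × ℤ} (hc : Even (c.1 + c.2)) (ω : Cfg) (w s : ℤ × ℤ) :
    ω ∘ tp c ∈ LZ w s ↔ ω ∈ LZ (tp c w) (tp c s) := by
  have h1 : {t : ℤ × ℤ | ReflTransGen (PStep (blk (ω ∘ tp c) w)ᶜ) s t} =
      tp c ⁻¹' {t : ℤ × ℤ | ReflTransGen (PStep (blk ω (tp c w))ᶜ) (tp c s) t} := by
    ext t
    exact rtg_tp fun v => not_congr (blk_tp hc ω w v)
  have hinj : Function.Injective (tp c) := fun a b h => by
    rw [← tp_neg c a, h, tp_neg]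
  have hsurj : Function.Surjective (tp c) := fun a => ⟨tp (-c) a, tp_neg' c a⟩
  unfold LZ
  rw [Set.mem_ofPred_eq, Set.mem_ofPred_eq, h1]
  constructor
  · intro h
    have h2 := h.image (tp c)
    rwa [Set.image_preimage_eq _ hsurj] at h2
  · intro h
    exact h.preimage hinj.injOn

/-! ### The squares -/

theorem ea_tp (w u : ℤ × ℤ) : ea (tp (ro w) u) = ea u + w := by
  unfold ea tp ro
  ext <;> simp only [Prod.fst_add, Prod.snd_add] <;> omega

theorem eb_tp (w u : ℤ × ℤ) : eb (tp (ro w) u) = eb u + w := by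
  have h : Even ((tp (ro w) u).1 + (tp (ro w) u).2) ↔ Even (u.1 + u.2) := by
    simp only [tp, ro, Int.even_iff]
    omega
  unfold eb
  by_cases h1 : Even (u.1 + u.2)
  · rw [if_pos h1, if_pos (h.2 h1)]
    simp only [tp, ro]
    ext <;> simp only [Prod.fst_add, Prod.snd_add] <;> omega
  · rw [if_neg h1, if_neg fun h2 => h1 (h.1 h2)]
    simp only [tp, ro]
    ext <;> simp only [Prod.fst_add, Prod.snd_add] <;> omega

theorem ed_tp (w u : ℤ × ℤ) : ed (tp (ro w) u) = Sym2.map (· + w) (ed u) := by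
  unfold ed
  rw [ea_tp, eb_tp]
  rfl

theorem map_inj (w : ℤ × ℤ) : Function.Injective (Sym2.map (· + w) : Sym2 (ℤ × ℤ) → _) :=
  Sym2.map.injective (add_left_injective w)

theorem edges_tp (S : Finset (ℤ × ℤ)) (w : ℤ × ℤ) :
    edges (S.image (· + w)) = (edges S).image (Sym2.map (· + w)) := by
  unfold edges
  rw [Finset.image_biUnion, Finset.biUnion_image]
  refine Finset.biUnion_congr rfl fun f _ => ?_
  simp only [Finset.image_insert, Finset.image_singleton, Sym2.map_mk]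
  simp only [add_right_comm]

variable {n : ℕ}

theorem wE_tp (p : ZMod n → ℤ × ℤ) (k : ℕ) (w : ℤ × ℤ) :
    wE (fun i => p i + w) k = (wE p k).image (Sym2.map (· + w)) := by
  unfold wE
  rw [Finset.image_image]
  rfl

/-- The squares of the translated domain. -/
theorem mem_Dq_tp (S : Finset (ℤ × ℤ)) (p : ZMod n → ℤ × ℤ) (k : ℕ) (w u : ℤ × ℤ) :
    tp (ro w) u ∈ Dq (S.image (· + w)) (fun i => p i + w) k ↔ u ∈ Dq S p k := by
  rw [mem_Dq', mem_Dq', ed_tp, edges_tp, wE_tp]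
  constructor
  · rintro ⟨h1, h2⟩
    refine ⟨?_, fun h => h2 (Finset.mem_image_of_mem _ h)⟩
    obtain ⟨e, he, h3⟩ := Finset.mem_image.1 h1
    rwa [← map_inj w h3]
  · rintro ⟨h1, h2⟩
    refine ⟨Finset.mem_image_of_mem _ h1, fun h => h2 ?_⟩
    obtain ⟨e, he, h3⟩ := Finset.mem_image.1 h
    rwa [← map_inj w h3]

theorem etaQ_tp (p : ZMod n → ℤ × ℤ) (k : ℕ) (w u : ℤ × ℤ) :
    etaQ (fun i => p i + w) k (tp (ro w) u) = etaQ p k u := by
  rw [Bool.eq_iff_iff]
  unfold etaQ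
  rw [cfg_true, cfg_true, ed_tp, wE_tp, Finset.mem_coe, Finset.mem_coe]
  constructor
  · intro h
    obtain ⟨e, he, h3⟩ := Finset.mem_image.1 h
    rwa [← map_inj w h3]
  · intro h
    exact Finset.mem_image_of_mem _ h

theorem isPolygon_tp {p : ZMod n → ℤ × ℤ} (hp : IsPolygon p) (w : ℤ × ℤ) :
    IsPolygon fun i => p i + w := by
  refine ⟨hp.1, fun a b h => hp.2.1 (add_right_cancel h), fun i => ?_⟩
  obtain ⟨r, hr⟩ := hp.2.2 i
  refine ⟨r, ?_⟩
  simp only [hr]
  abel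

theorem encloses_tp {p : ZMod n → ℤ × ℤ} {S : Finset (ℤ × ℤ)} (hE : Encloses p S) (w : ℤ × ℤ) :
    Encloses (fun i => p i + w) (S.image (· + w)) := by
  intro v r
  have h1 : ∀ (u : ℤ × ℤ), u ∈ S.image (· + w) ↔ u - w ∈ S := by
    intro u
    rw [Finset.mem_image]
    constructor
    · rintro ⟨a, ha, rfl⟩
      rwa [add_sub_cancel_right]
    · intro h
      exact ⟨u - w, h, sub_add_cancel u w⟩
  have h2 : ∀ r, face v r - w = face (v - w) r := by
    intro r
    unfold face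
    abel
  rw [h1, h1, h2, h2, ← hE (v - w) r]
  constructor
  · rintro ⟨i, h3, h4⟩
    refine ⟨i, eq_sub_of_add_eq h3, ?_⟩
    have h5 : p (i + 1) = v + dir r - w := eq_sub_of_add_eq h4
    rw [h5]
    abel
  · rintro ⟨i, h3, h4⟩
    refine ⟨i, by simp only [h3]; abel, ?_⟩
    simp only [h4]
    abel

/-- **The probability of `L` is invariant under translations.** -/
theorem PL_tr {q : ℝ} (hq : 0 < q) {p : ZMod n → ℤ × ℤ} {k : ℕ} {S : Finset (ℤ × ℤ)} {f : ℤ × ℤ}
    (hp : IsPolygon p) (hE : Encloses p S) (w : ℤ × ℤ) :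
    PL q (fun i => p i + w) k (S.image (· + w)) (f + w) = PL q p k S f := by
  have hQ : 0 < √q := Real.sqrt_pos.2 hq
  have hev : Even ((-ro w).1 + (-ro w).2) := by
    simp only [ro, Prod.fst_neg, Prod.snd_neg, Int.even_iff]
    omega
  unfold PL
  rw [mean_eq_Ex hq hp hE, mean_eq_Ex hq (isPolygon_tp hp w) (encloses_tp hE w)]
  have h1 : Dq (S.image (· + w)) (fun i => p i + w) k =
      (Dq S p k).image (FK.trV (-ro w)) := by
    ext u
    rw [H685.Q.mem_trV]
    have h2 := mem_Dq_tp S p k w (tp (-ro w) u)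
    rw [tp_neg'] at h2
    exact h2
  have h2 : etaQ (fun i => p i + w) k =
      etaQ p k ∘ (fun v => (v.1 + (-ro w).1, v.2 + (-ro w).2)) := by
    funext u
    have h3 := etaQ_tp p k w (tp (-ro w) u)
    rw [tp_neg'] at h3
    exact h3
  rw [h1, h2, H685.Q.Ex_tr hQ hev _ good_etaQ]
  congr 1
  funext ω
  have h3 : (fun v : ℤ × ℤ => (v.1 + (-ro w).1, v.2 + (-ro w).2)) = tp (-ro w) := rfl
  rw [h3]
  have h4 : ω ∘ tp (-ro w) ∈ LZ (ro (p (-1) + w)) (rf (f + w)) ↔ ω ∈ LZ (ro (p (-1))) (rf f) := by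
    rw [LZ_tp hev]
    have e1 : tp (-ro w) (ro (p (-1) + w)) = ro (p (-1)) := by
      unfold tp ro
      ext <;> simp <;> ring
    have e2 : tp (-ro w) (rf (f + w)) = rf f := by
      unfold tp ro rf
      ext <;> simp <;> ring
    rw [e1, e2]
  by_cases h5 : ω ∈ LZ (ro (p (-1))) (rf f)
  · rw [Set.indicator_of_mem h5, Set.indicator_of_mem (h4.2 h5)]
    rfl
  · rw [Set.indicator_of_notMem h5, Set.indicator_of_notMem fun h => h5 (h4.1 h)]

end Vale.Agent.P167.H212.L
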